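import Mathlib

/-! Row 19 (Egyptian fractions): unit-fraction bookkeeping and the greedy phase. -/

set_option autoImplicit false

namespace Crest.Agent.R19

open Finset

/-- `x` is a sum of at most `k` unit fractions (repetitions allowed). -/
def UF (k : ℕ) (x : ℚ) : Prop :=
  ∃ l : List ℕ, l.length ≤ k ∧ (∀ n ∈ l, 1 ≤ n) ∧ (l.map fun n : ℕ => (1 : ℚ) / n).sum = x

lemma UF.zero (k : ℕ) : UF k 0 := ⟨[], by simp, by simp, by simp⟩

lemma UF.unit {n : ℕ} (hn : 1 ≤ n) : UF 1 (1 / n) := ⟨[n], by simp, by simpa using hn, by simp⟩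

lemma UF.add {k k' : ℕ} {x y : ℚ} (hx : UF k x) (hy : UF k' y) : UF (k + k') (x + y) := by
  obtain ⟨l, h1, h2, h3⟩ := hx
  obtain ⟨l', h1', h2', h3'⟩ := hy
  refine ⟨l ++ l', by simp; omega, ?_, by simp [← h3, ← h3']⟩
  intro n hn
  rcases List.mem_append.1 hn with h | h
  exacts [h2 n h, h2' n h]

lemma UF.mono {k k' : ℕ} {x : ℚ} (hx : UF k x) (h : k ≤ k') : UF k' x := by
  obtain ⟨l, h1, h2, h3⟩ := hx
  exact ⟨l, h1.trans h, h2, h3⟩

lemma UF.nonneg {k : ℕ} {x : ℚ} (hx : UF k x) : 0 ≤ x := by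
  obtain ⟨l, -, -, h3⟩ := hx
  rw [← h3]
  apply List.sum_nonneg
  intro y hy
  obtain ⟨n, -, rfl⟩ := List.mem_map.1 hy
  positivity

lemma UF.sum {ι : Type*} (s : Finset ι) (k : ℕ) (f : ι → ℚ) (h : ∀ i ∈ s, UF k (f i)) :
    UF (s.card * k) (∑ i ∈ s, f i) := by
  classical
  induction s using Finset.induction_on with
  | empty => simpa using UF.zero 0
  | insert a s ha ih =>
    rw [sum_insert ha, card_insert_of_notMem ha]
    have := (h a (mem_insert_self _ _)).add (ih fun i hi => h i (mem_insert_of_mem hi))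
    exact this.mono (by ring_nf; omega)

lemma UF.of_finset (S : Finset ℕ) (h : ∀ n ∈ S, 1 ≤ n) :
    UF S.card (∑ n ∈ S, (1 : ℚ) / n) := by
  simpa using UF.sum S 1 (fun n => (1 : ℚ) / n) fun n hn => UF.unit (h n hn)

/-- Repetitions can be removed without increasing the number of terms. -/
lemma UF.distinct (k : ℕ) : ∀ x : ℚ, x < 1 → UF k x →
    ∃ S : Finset ℕ, (∀ n ∈ S, 2 ≤ n) ∧ S.card ≤ k ∧ ∑ n ∈ S, (1 : ℚ) / n = x := by
  classical
  induction k with
  | zero =>
    rintro x - ⟨l, h1, -, h3⟩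
    have : l = [] := List.eq_nil_of_length_eq_zero (by omega)
    subst this
    exact ⟨∅, by simp, by simp, by simpa using h3⟩
  | succ k ih =>
    intro x hx hU
    by_cases h0 : x = 0
    · exact ⟨∅, by simp, by simp, by simp [h0]⟩
    have hex : ∃ m : ℕ, 1 ≤ m ∧ UF k (x - 1 / m) := by
      obtain ⟨l, h1, h2, h3⟩ := hU
      cases l with
      | nil => exact absurd (by simpa using h3.symm) h0
      | cons m l =>
        refine ⟨m, h2 m (by simp), l, by simpa using h1, fun n hn => h2 n (by simp [hn]), ?_⟩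
        simp only [List.map_cons, List.sum_cons] at h3
        linarith
    obtain ⟨hm1, hmU⟩ := Nat.find_spec hex
    have hmin := fun m' (h : m' < Nat.find hex) => Nat.find_min hex h
    set m := Nat.find hex with hm
    have hmpos : (0 : ℚ) < m := by exact_mod_cast hm1
    have hm2 : 2 ≤ m := by
      by_contra hc
      have : m = 1 := by omega
      have h := hmU.nonneg
      rw [this] at h
      norm_num at h
      linarith
    have hlt : x - 1 / m < 1 := by
      have : (0 : ℚ) < 1 / m := by positivity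
      linarith
    obtain ⟨S, hS2, hSc, hSs⟩ := ih _ hlt hmU
    by_cases hmS : m ∈ S
    · exfalso
      have hS' : ∑ n ∈ S.erase m, (1 : ℚ) / n = x - 2 / m := by
        have := add_sum_erase S (fun n : ℕ => (1 : ℚ) / n) hmS
        rw [hSs] at this
        have e : (2 : ℚ) / m = 1 / m + 1 / m := by ring
        linarith
      have hc : (S.erase m).card + 1 ≤ k := by
        rw [card_erase_add_one hmS]; exact hSc
      have hU' : UF (S.erase m).card (x - 2 / m) := by
        rw [← hS']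
        exact UF.of_finset _ fun n hn => le_trans (by norm_num) (hS2 n (mem_of_mem_erase hn))
      rcases Nat.even_or_odd' m with ⟨m', he | ho⟩
      · apply hmin m' (by omega)
        refine ⟨by omega, ?_⟩
        have : x - 1 / (m' : ℚ) = x - 2 / m := by
          have : (m' : ℚ) ≠ 0 := by
            have : m' ≠ 0 := by omega
            exact_mod_cast this
          rw [he]; push_cast; field_simp
        rw [this]
        exact hU'.mono (by omega)
      · apply hmin (m' + 1) (by omega)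
        refine ⟨by omega, ?_⟩
        have : x - 1 / ((m' + 1 : ℕ) : ℚ) = (x - 2 / m) + 1 / ((m * (m' + 1) : ℕ) : ℚ) := by
          rw [ho]; push_cast; field_simp; ring
        rw [this]
        exact (hU'.add (UF.unit (Nat.mul_pos (by omega) (by omega)))).mono hc
    · refine ⟨insert m S, ?_, ?_, ?_⟩
      · intro n hn
        rcases mem_insert.1 hn with rfl | h
        exacts [hm2, hS2 n h]
      · rw [card_insert_of_notMem hmS]; omega
      · rw [sum_insert hmS, hSs]; ring

/-- If `ρ` divides a sum of divisors of `D`, then `ρ / D` is a short sum of unit fractions. -/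
lemma UF.of_dvd_sum {ι : Type*} (s : Finset ι) (u : ι → ℕ) {D ρ : ℕ} (hD : 0 < D)
    (hu : ∀ i ∈ s, u i ∣ D) (hs : s.Nonempty) (hρ : ρ ∣ ∑ i ∈ s, u i) :
    UF s.card ((ρ : ℚ) / D) := by
  have hupos : ∀ i ∈ s, 0 < u i := fun i hi => Nat.pos_of_dvd_of_pos (hu i hi) hD
  have hS : 0 < ∑ i ∈ s, u i := sum_pos hupos hs
  obtain ⟨c, hc⟩ := hρ
  have hcpos : 0 < c := by
    rcases Nat.eq_zero_or_pos c with rfl | h
    · omega
    · exact h
  have key : (ρ : ℚ) / D = ∑ i ∈ s, (1 : ℚ) / ((D / u i * c : ℕ) : ℚ) := by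
    have e : ∀ i ∈ s, (1 : ℚ) / ((D / u i * c : ℕ) : ℚ) = (u i : ℚ) / (D * c) := by
      intro i hi
      obtain ⟨d, hd⟩ := hu i hi
      have h1 : D / u i = d := by rw [hd]; exact Nat.mul_div_cancel_left _ (hupos i hi)
      have hd0 : (d : ℚ) ≠ 0 := by
        have : d ≠ 0 := by rintro rfl; omega
        exact_mod_cast this
      have hu0 : (u i : ℚ) ≠ 0 := by exact_mod_cast (hupos i hi).ne'
      have hc0 : (c : ℚ) ≠ 0 := by exact_mod_cast hcpos.ne'
      rw [h1, hd]; push_cast; field_simp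
    rw [sum_congr rfl e, ← sum_div, ← Nat.cast_sum, hc]
    have hc0 : (c : ℚ) ≠ 0 := by exact_mod_cast hcpos.ne'
    have hD0 : (D : ℚ) ≠ 0 := by exact_mod_cast hD.ne'
    push_cast; field_simp
  rw [key]
  have := UF.sum s 1 (fun i => (1 : ℚ) / ((D / u i * c : ℕ) : ℚ)) fun i hi =>
    UF.unit (Nat.mul_pos (Nat.div_pos (Nat.le_of_dvd hD (hu i hi)) (hupos i hi)) hcpos)
  simpa using this

/-- The strict greedy algorithm: state (numerator, denominator). -/
def gr (a b : ℕ) : ℕ → ℕ × ℕ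
  | 0 => (a, b)
  | i + 1 => ((gr a b i).1 * ((gr a b i).2 / (gr a b i).1 + 1) - (gr a b i).2,
      (gr a b i).2 * ((gr a b i).2 / (gr a b i).1 + 1))

lemma step_bounds {A D : ℕ} (hA : 1 ≤ A) :
    1 ≤ A * (D / A + 1) - D ∧ A * (D / A + 1) - D ≤ A ∧ D ≤ A * (D / A + 1) := by
  have h1 := Nat.div_add_mod D A
  have h2 := Nat.mod_lt D hA
  have : A * (D / A + 1) = A * (D / A) + A := by ring
  omega

lemma greedy {a b : ℕ} (ha : 1 ≤ a) (hab : a < b) :
    ∃ A D : ℕ → ℕ, (∀ i, 1 ≤ A i ∧ A i ≤ a) ∧ (∀ i, 0 < D i) ∧ (∀ i, D i ∣ D (i + 1)) ∧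
      (∀ i, UF i ((a : ℚ) / b - (A i : ℚ) / D i)) ∧ (∀ i, 2 * D i ≤ (2 * b) ^ (2 ^ i)) ∧
      (∀ i, D (i + 1) * (2 ^ (2 ^ i) + 1) ≤ D (i + 2)) := by
  have hA : ∀ i, 1 ≤ (gr a b i).1 ∧ (gr a b i).1 ≤ a := by
    intro i
    induction i with
    | zero => exact ⟨ha, le_rfl⟩
    | succ i ih =>
      have := step_bounds (D := (gr a b i).2) ih.1
      exact ⟨this.1, this.2.1.trans ih.2⟩
  have hD : ∀ i, 0 < (gr a b i).2 := by
    intro i
    induction i with
    | zero => exact lt_of_le_of_lt (Nat.zero_le _) hab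
    | succ i ih => exact Nat.mul_pos ih (Nat.succ_pos _)
  have hm : ∀ i, ((gr a b i).2 / (gr a b i).1) * ((gr a b i).2 / (gr a b i).1 + 1) ≤
      (gr a b (i + 1)).2 / (gr a b (i + 1)).1 := by
    intro i
    rw [Nat.le_div_iff_mul_le (hA (i + 1)).1]
    have h1 : (gr a b (i + 1)).1 ≤ (gr a b i).1 := (step_bounds (D := (gr a b i).2) (hA i).1).2.1
    have h2 : (gr a b i).2 / (gr a b i).1 * (gr a b i).1 ≤ (gr a b i).2 := Nat.div_mul_le_self _ _
    calc _ ≤ (gr a b i).2 / (gr a b i).1 * ((gr a b i).2 / (gr a b i).1 + 1) * (gr a b i).1 :=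
          Nat.mul_le_mul_left _ h1
      _ = ((gr a b i).2 / (gr a b i).1 * (gr a b i).1) * ((gr a b i).2 / (gr a b i).1 + 1) := by
          ring
      _ ≤ (gr a b i).2 * ((gr a b i).2 / (gr a b i).1 + 1) := Nat.mul_le_mul_right _ h2
      _ = (gr a b (i + 1)).2 := rfl
  have hm0 : 1 ≤ (gr a b 0).2 / (gr a b 0).1 := Nat.div_pos hab.le ha
  have hm' : ∀ i, 2 ^ (2 ^ i) ≤ (gr a b (i + 1)).2 / (gr a b (i + 1)).1 := by
    intro i
    induction i with
    | zero =>
      have := hm 0
      calc 2 ^ 2 ^ 0 = 1 * (1 + 1) := by norm_num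
        _ ≤ _ := Nat.mul_le_mul hm0 (Nat.succ_le_succ hm0)
        _ ≤ _ := this
    | succ i ih =>
      have := hm (i + 1)
      calc 2 ^ 2 ^ (i + 1) = 2 ^ 2 ^ i * 2 ^ 2 ^ i := by rw [pow_succ, mul_two, pow_add]
        _ ≤ _ := Nat.mul_le_mul ih (ih.trans (Nat.le_succ _))
        _ ≤ _ := this
  refine ⟨fun i => (gr a b i).1, fun i => (gr a b i).2, hA, hD, fun i => Dvd.intro _ rfl, ?_, ?_, ?_⟩
  · intro i
    induction i with
    | zero => simpa [gr] using UF.zero 0
    | succ i ih =>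
      have h := ih.add (UF.unit (n := (gr a b i).2 / (gr a b i).1 + 1) (Nat.succ_pos _))
      convert h using 1
      have h3 := (step_bounds (D := (gr a b i).2) (hA i).1).2.2
      have hD0 : ((gr a b i).2 : ℚ) ≠ 0 := by exact_mod_cast (hD i).ne'
      simp only [gr]
      generalize (gr a b i).2 / (gr a b i).1 = m at *
      rw [Nat.cast_sub h3]
      push_cast
      field_simp
      ring
  · intro i
    induction i with
    | zero => simp [gr]
    | succ i ih =>
      have h1 : (gr a b i).2 / (gr a b i).1 + 1 ≤ 2 * (gr a b i).2 := by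
        have := Nat.div_le_self (gr a b i).2 (gr a b i).1
        have := hD i
        omega
      calc 2 * (gr a b (i + 1)).2 = 2 * (gr a b i).2 * ((gr a b i).2 / (gr a b i).1 + 1) := by
            simp only [gr]; ring
        _ ≤ (2 * (gr a b i).2) * (2 * (gr a b i).2) := Nat.mul_le_mul_left _ h1
        _ ≤ (2 * b) ^ (2 ^ i) * (2 * b) ^ (2 ^ i) := Nat.mul_le_mul ih ih
        _ = (2 * b) ^ (2 ^ (i + 1)) := by rw [pow_succ 2 i, mul_two, pow_add]
  · intro i
    exact Nat.mul_le_mul_left _ (Nat.succ_le_succ (hm' i))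

end Crest.Agent.R19
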