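import Mathlib

/-! Row 19: collision counts and the Fourier criterion for `ρ ∣ ∑ gₘ vₘ`. -/

set_option autoImplicit false

namespace Crest.Agent.R19

open Finset Complex

/-- number of pairs colliding modulo `q` -/
def coll {ι : Type*} (s : Finset ι) (Z : ι → ℕ) (q : ℕ) : ℕ :=
  ((s ×ˢ s).filter fun p => Z p.1 % q = Z p.2 % q).card

lemma coll_eq_sum {ι : Type*} (s : Finset ι) (Z : ι → ℕ) {q : ℕ} (hq : 0 < q) :
    coll s Z q = ∑ y ∈ range q, (s.filter fun a => Z a % q = y).card ^ 2 := by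
  classical
  unfold coll
  rw [card_eq_sum_card_fiberwise (f := fun p : ι × ι => Z p.1 % q) (t := range q)]
  · refine sum_congr rfl fun y _ => ?_
    rw [sq, ← card_product]
    congr 1
    ext ⟨a, b⟩
    simp only [mem_filter, mem_product]
    constructor
    · rintro ⟨⟨⟨h1, h2⟩, h3⟩, h4⟩
      exact ⟨⟨h1, h4⟩, h2, h3 ▸ h4⟩
    · rintro ⟨⟨h1, h4⟩, h2, h3⟩
      exact ⟨⟨⟨h1, h2⟩, h4.trans h3.symm⟩, h4⟩
  · intro p _
    simpa using Nat.mod_lt _ hq

/-- additive character -/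
noncomputable def e (q : ℕ) (t : ℤ) : ℂ := exp (2 * Real.pi * I * t / q)

lemma e_add (q : ℕ) (s t : ℤ) : e q (s + t) = e q s * e q t := by
  unfold e; rw [← Complex.exp_add]; congr 1; push_cast; ring

lemma e_zero (q : ℕ) : e q 0 = 1 := by simp [e]

lemma e_norm (q : ℕ) (t : ℤ) : ‖e q t‖ = 1 := by
  unfold e
  have : (2 * Real.pi * I * t / q : ℂ) = ((2 * Real.pi * t / q : ℝ) : ℂ) * I := by
    push_cast; ring
  rw [this, norm_exp_ofReal_mul_I]

lemma e_conj (q : ℕ) (t : ℤ) : (starRingEnd ℂ) (e q t) = e q (-t) := by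
  unfold e
  rw [← exp_conj]
  congr 1
  simp only [map_div₀, map_mul, conj_I, map_natCast, map_intCast, conj_ofReal, map_ofNat]
  push_cast; ring

lemma e_zpow (q : ℕ) (t : ℤ) : e q t = exp (2 * Real.pi * I / q) ^ t := by
  unfold e; rw [← Complex.exp_int_mul]; congr 1; ring

lemma e_eq_one_iff {q : ℕ} (hq : 0 < q) (t : ℤ) : e q t = 1 ↔ (q : ℤ) ∣ t := by
  rw [e_zpow]
  exact (Complex.isPrimitiveRoot_exp q hq.ne').zpow_eq_one_iff_dvd t

lemma e_mul_nat (q : ℕ) (y : ℕ) (t : ℤ) : e q (y * t) = e q t ^ y := by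
  induction y with
  | zero => simp [e_zero]
  | succ y ih => rw [pow_succ, ← ih, ← e_add]; congr 1; push_cast; ring

lemma e_orth {q : ℕ} (hq : 0 < q) (t : ℤ) :
    ∑ y ∈ range q, e q (y * t) = if (q : ℤ) ∣ t then (q : ℂ) else 0 := by
  simp_rw [e_mul_nat]
  split_ifs with h
  · simp [(e_eq_one_iff hq t).2 h]
  · have h1 : e q t ≠ 1 := fun h' => h ((e_eq_one_iff hq t).1 h')
    rw [geom_sum_eq h1, ← e_mul_nat, (e_eq_one_iff hq _).2 (Dvd.intro _ rfl)]
    simp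

lemma e_congr {q : ℕ} (hq : 0 < q) {s t : ℤ} (h : (q : ℤ) ∣ s - t) : e q s = e q t := by
  have : s = t + (s - t) := by ring
  rw [this, e_add, (e_eq_one_iff hq _).2 h, mul_one]

lemma e_scale {q d : ℕ} (hd : 0 < d) (t : ℤ) : e (d * q) (d * t) = e q t := by
  unfold e
  congr 1
  have : (d : ℂ) ≠ 0 := by exact_mod_cast hd.ne'
  push_cast
  rcases eq_or_ne (q : ℂ) 0 with h | h
  · simp [h]
  · field_simp

lemma parseval {ι : Type*} (s : Finset ι) (Z : ι → ℕ) {q : ℕ} (hq : 0 < q) {c : ℕ}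
    (hc : Nat.Coprime c q) :
    ∑ y ∈ range q, ‖∑ a ∈ s, e q (y * c * Z a)‖ ^ 2 = q * coll s Z q := by
  classical
  have key : ∀ y : ℕ, ((‖∑ a ∈ s, e q (y * c * Z a)‖ ^ 2 : ℝ) : ℂ) =
      ∑ p ∈ s ×ˢ s, e q (y * (c * ((Z p.1 : ℤ) - Z p.2))) := by
    intro y
    rw [← Complex.normSq_eq_norm_sq, ← Complex.mul_conj, map_sum, sum_mul_sum, sum_product]
    refine sum_congr rfl fun a _ => sum_congr rfl fun b _ => ?_
    rw [e_conj, ← e_add]; congr 1; ring
  apply Complex.ofReal_injective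
  push_cast [-ofReal_pow]
  simp_rw [key]
  rw [sum_comm]
  simp_rw [e_orth hq]
  rw [← sum_filter, sum_const, nsmul_eq_mul, mul_comm]
  congr 2
  unfold coll
  congr 1
  refine filter_congr fun p _ => ?_
  have : IsCoprime (q : ℤ) (c : ℤ) := Nat.isCoprime_iff_coprime.2 hc.symm
  rw [show ((q : ℤ) ∣ c * ((Z p.1 : ℤ) - Z p.2)) ↔ (q : ℤ) ∣ (Z p.1 : ℤ) - Z p.2 from
    ⟨fun h => this.dvd_of_dvd_mul_left h, fun h => h.mul_left _⟩]
  rw [← Nat.modEq_iff_dvd]
  exact ⟨fun h => h.symm, fun h => h.symm⟩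

section bil
variable {ι κ : Type*} (G : Finset ι) (V : Finset κ) (g : ι → ℕ) (v : κ → ℕ)

/-- the bilinear exponential sum -/
noncomputable def T (q : ℕ) (x : ℕ) : ℂ := ∑ a ∈ G, ∑ b ∈ V, e q (x * g a * v b)

lemma T_pointwise {q : ℕ} (hq : 0 < q) {x : ℕ} (hx : Nat.Coprime x q) :
    ‖T G V g v q x‖ ^ 2 ≤ (coll V v q : ℝ) * (q * coll G g q) := by
  classical
  have h1 : T G V g v q x = ∑ y ∈ range q,
      ((V.filter fun b => v b % q = y).card : ℂ) * ∑ a ∈ G, e q (y * x * g a) := by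
    unfold T
    rw [sum_comm, ← sum_fiberwise_of_maps_to (g := fun b => v b % q) (t := range q)
      (fun b _ => by simpa using Nat.mod_lt _ hq)]
    refine sum_congr rfl fun y _ => ?_
    rw [← nsmul_eq_mul, ← sum_const]
    refine sum_congr rfl fun b hb => sum_congr rfl fun a _ => e_congr hq ?_
    have hb' : v b % q = y := (mem_filter.1 hb).2
    have : (q : ℤ) ∣ (v b : ℤ) - y := by
      rw [← hb', ← Nat.modEq_iff_dvd]; exact Nat.mod_modEq _ _
    have e1 : (x : ℤ) * g a * v b - y * x * g a = (x * g a) * ((v b : ℤ) - y) := by ring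
    rw [e1]; exact this.mul_left _
  rw [h1, ← parseval G g hq hx, coll_eq_sum V v hq]
  push_cast
  refine le_trans ?_ (sum_mul_sq_le_sq_mul_sq _ _ _)
  gcongr
  refine (norm_sum_le _ _).trans (le_of_eq ?_)
  refine sum_congr rfl fun y _ => ?_
  rw [norm_mul, Complex.norm_natCast]

lemma T_mean {q : ℕ} (hq : 0 < q) (hG : ∀ a ∈ G, Nat.Coprime (g a) q) :
    ∑ x ∈ range q, ‖T G V g v q x‖ ^ 2 ≤ (G.card : ℝ) ^ 2 * (q * coll V v q) := by
  have h1 : ∀ x : ℕ, ‖T G V g v q x‖ ^ 2 ≤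
      G.card * ∑ a ∈ G, ‖∑ b ∈ V, e q (x * g a * v b)‖ ^ 2 := by
    intro x
    refine le_trans ?_ (sq_sum_le_card_mul_sum_sq (s := G)
      (f := fun a => ‖∑ b ∈ V, e q (x * g a * v b)‖))
    gcongr
    exact norm_sum_le _ _
  refine (sum_le_sum fun x _ => h1 x).trans (le_of_eq ?_)
  rw [← mul_sum, sum_comm, sum_congr rfl fun a ha => parseval V v hq (hG a ha), sum_const,
    nsmul_eq_mul]
  ring

lemma T_four {q : ℕ} (hq : 0 < q) (hG : ∀ a ∈ G, Nat.Coprime (g a) q) :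
    ∑ x ∈ (range q).filter (fun x => Nat.Coprime x q), ‖T G V g v q x‖ ^ 4 ≤
      (G.card : ℝ) ^ 2 * (q * coll V v q) ^ 2 * coll G g q := by
  calc _ ≤ ∑ x ∈ (range q).filter (fun x => Nat.Coprime x q),
        ((coll V v q : ℝ) * (q * coll G g q)) * ‖T G V g v q x‖ ^ 2 := by
        refine sum_le_sum fun x hx => ?_
        rw [show (4 : ℕ) = 2 + 2 from rfl, pow_add]
        gcongr
        exact T_pointwise G V g v hq (mem_filter.1 hx).2
    _ ≤ ∑ x ∈ range q, ((coll V v q : ℝ) * (q * coll G g q)) * ‖T G V g v q x‖ ^ 2 :=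
        sum_le_sum_of_subset_of_nonneg (filter_subset _ _) fun _ _ _ => by positivity
    _ ≤ ((coll V v q : ℝ) * (q * coll G g q)) * ((G.card : ℝ) ^ 2 * (q * coll V v q)) := by
        rw [← mul_sum]
        gcongr
        exact T_mean G V g v hq hG
    _ = _ := by ring

lemma T_reduce {ρ : ℕ} (hρ : 0 < ρ) (h : ℕ) :
    T G V g v ρ h = T G V g v (ρ / Nat.gcd h ρ) (h / Nat.gcd h ρ) := by
  have hd : 0 < Nat.gcd h ρ := Nat.gcd_pos_of_pos_right _ hρ
  obtain ⟨q, hq⟩ := Nat.gcd_dvd_right h ρ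
  obtain ⟨x, hx⟩ := Nat.gcd_dvd_left h ρ
  generalize Nat.gcd h ρ = d at *
  subst hq hx
  rw [Nat.mul_div_cancel_left _ hd, Nat.mul_div_cancel_left _ hd]
  unfold T
  refine sum_congr rfl fun a _ => sum_congr rfl fun b _ => ?_
  rw [← e_scale (q := q) hd]
  congr 1; push_cast; ring

/-- Fourier criterion. -/
lemma exists_solution {ρ : ℕ} (hρ : 0 < ρ) (hG : ∀ a ∈ G, Nat.Coprime (g a) ρ)
    (h : ∑ q ∈ ρ.divisors.erase 1, (G.card : ℝ) ^ 2 * (q * coll V v q) ^ 2 * coll G g q <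
      ((G.card : ℝ) * V.card) ^ 4) :
    ∃ p : Fin 4 → ι × κ, (∀ m, p m ∈ G ×ˢ V) ∧ ρ ∣ ∑ m, g (p m).1 * v (p m).2 := by
  classical
  by_contra hne
  push Not at hne
  have h0 : ∑ x ∈ range ρ, T G V g v ρ x ^ 4 = 0 := by
    have : ∀ x : ℕ, T G V g v ρ x ^ 4 = ∑ p ∈ Fintype.piFinset (fun _ : Fin 4 => G ×ˢ V),
        e ρ (x * ((∑ m, g (p m).1 * v (p m).2 : ℕ) : ℤ)) := by
      intro x
      unfold T
      rw [← sum_product', sum_pow']
      refine sum_congr rfl fun p _ => ?_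
      simp only [Fin.prod_univ_four, Fin.sum_univ_four, ← e_add]
      congr 1; push_cast; ring
    simp_rw [this]
    rw [sum_comm]
    refine sum_eq_zero fun p hp => ?_
    rw [e_orth hρ, if_neg]
    intro hd
    exact hne p (fun m => Fintype.mem_piFinset.1 hp m) (Int.natCast_dvd_natCast.1 hd)
  have hT0 : T G V g v ρ 0 = (G.card : ℂ) * V.card := by
    simp [T, e_zero]
  rw [← add_sum_erase _ _ (mem_range.2 hρ), hT0] at h0
  have h1 : ((G.card : ℝ) * V.card) ^ 4 ≤ ∑ x ∈ (range ρ).erase 0, ‖T G V g v ρ x‖ ^ 4 := by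
    have : ((G.card : ℂ) * V.card) ^ 4 = -∑ x ∈ (range ρ).erase 0, T G V g v ρ x ^ 4 := by
      linear_combination h0
    have h2 := congrArg norm this
    rw [norm_neg, norm_pow, norm_mul, Complex.norm_natCast, Complex.norm_natCast] at h2
    rw [h2]
    refine (norm_sum_le _ _).trans (le_of_eq ?_)
    simp_rw [norm_pow]
  have h2 : ∑ x ∈ (range ρ).erase 0, ‖T G V g v ρ x‖ ^ 4 ≤
      ∑ q ∈ ρ.divisors.erase 1, ∑ x ∈ (range q).filter (fun x => Nat.Coprime x q),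
        ‖T G V g v q x‖ ^ 4 := by
    rw [sum_sigma']
    rw [sum_congr rfl fun x _ => by rw [T_reduce G V g v hρ x]]
    rw [← sum_image (g := fun x : ℕ => (⟨ρ / Nat.gcd x ρ, x / Nat.gcd x ρ⟩ : Σ _ : ℕ, ℕ))
      (f := fun p : (Σ _ : ℕ, ℕ) => ‖T G V g v p.1 p.2‖ ^ 4) ?_]
    refine sum_le_sum_of_subset_of_nonneg ?_ (fun _ _ _ => by positivity)
    swap
    · intro x _ y _ hxy
      simp only [Sigma.mk.injEq, heq_eq_eq] at hxy
      have hx := Nat.div_mul_cancel (Nat.gcd_dvd_right x ρ)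
      have hy := Nat.div_mul_cancel (Nat.gcd_dvd_right y ρ)
      have hx' := Nat.div_mul_cancel (Nat.gcd_dvd_left x ρ)
      have hy' := Nat.div_mul_cancel (Nat.gcd_dvd_left y ρ)
      have hpos : 0 < ρ / Nat.gcd y ρ :=
        Nat.div_pos (Nat.gcd_le_right _ hρ) (Nat.gcd_pos_of_pos_right _ hρ)
      have : Nat.gcd x ρ = Nat.gcd y ρ := by
        rw [hxy.1] at hx
        exact Nat.eq_of_mul_eq_mul_left hpos (hx.trans hy.symm)
      rw [← hx', ← hy', hxy.2, this]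
    · intro p hp
      obtain ⟨x, hx, rfl⟩ := mem_image.1 hp
      obtain ⟨hx0, hxρ⟩ := mem_erase.1 hx
      have hxρ := mem_range.1 hxρ
      have hd : 0 < Nat.gcd x ρ := Nat.gcd_pos_of_pos_right _ hρ
      have hlt : x / Nat.gcd x ρ < ρ / Nat.gcd x ρ :=
        Nat.div_lt_div_of_lt_of_dvd (Nat.gcd_dvd_right x ρ) hxρ
      have hpos : 0 < x / Nat.gcd x ρ :=
        Nat.div_pos (Nat.gcd_le_left _ (Nat.pos_of_ne_zero hx0)) hd
      simp only [mem_sigma, mem_erase, Nat.mem_divisors, mem_filter, mem_range]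
      exact ⟨⟨by omega, Nat.div_dvd_of_dvd (Nat.gcd_dvd_right x ρ), hρ.ne'⟩, hlt,
        Nat.coprime_div_gcd_div_gcd hd⟩
  have h3 : ∑ q ∈ ρ.divisors.erase 1, ∑ x ∈ (range q).filter (fun x => Nat.Coprime x q),
        ‖T G V g v q x‖ ^ 4 ≤
      ∑ q ∈ ρ.divisors.erase 1, (G.card : ℝ) ^ 2 * (q * coll V v q) ^ 2 * coll G g q := by
    refine sum_le_sum fun q hq => ?_
    have hq' := Nat.dvd_of_mem_divisors (mem_of_mem_erase hq)
    exact T_four G V g v (Nat.pos_of_dvd_of_pos hq' hρ)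
      fun a ha => Nat.Coprime.coprime_dvd_right hq' (hG a ha)
  linarith

end bil

end Crest.Agent.R19
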