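import Crest.Agent.R19.B

/-! Row 19: convexity of collision counts, divisor counting, averaging over moduli. -/

set_option autoImplicit false

namespace Crest.Agent.R19

open Finset

lemma coll_conv {ι α β : Type*} (s : Finset ι) (A : Finset α) (B : Finset β) (Z : ι → ℕ)
    (f : α → ℕ) (val : ι → α) (key : ι → β) {q : ℕ} (hq : 0 < q)
    (hval : ∀ a ∈ s, val a ∈ A) (hkey : ∀ a ∈ s, key a ∈ B)
    (hinj : ∀ a ∈ s, ∀ b ∈ s, val a = val b → key a = key b → a = b)
    (h : ∀ a ∈ s, ∀ b ∈ s, key a = key b → Z a % q = Z b % q → f (val a) % q = f (val b) % q) :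
    coll s Z q ≤ B.card ^ 2 * coll A f q := by
  classical
  have h1 : ∀ y, (s.filter fun a => Z a % q = y).card ^ 2 ≤
      B.card * ∑ k ∈ B, ((s.filter fun a => key a = k).filter fun a => Z a % q = y).card ^ 2 := by
    intro y
    rw [card_eq_sum_card_fiberwise (f := key) (t := B)
      (fun a ha => hkey a (mem_filter.1 (mem_coe.1 ha)).1)]
    refine le_trans (le_of_eq ?_) (sq_sum_le_card_mul_sum_sq (s := B)
      (f := fun k => ((s.filter fun a => key a = k).filter fun a => Z a % q = y).card))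
    congr 1
    refine sum_congr rfl fun k _ => ?_
    rw [filter_comm]
  have h2 : ∀ k ∈ B, coll (s.filter fun a => key a = k) Z q ≤ coll A f q := by
    intro k _
    unfold coll
    refine card_le_card_of_injOn (fun p => (val p.1, val p.2)) ?_ ?_
    · rintro ⟨a, b⟩ hp
      simp only [coe_filter, mem_product, mem_filter, Set.mem_ofPred_eq] at hp ⊢
      obtain ⟨⟨⟨ha, hka⟩, hb, hkb⟩, hab⟩ := hp
      exact ⟨⟨hval a ha, hval b hb⟩, h a ha b hb (hka.trans hkb.symm) hab⟩
    · rintro ⟨a, b⟩ hp ⟨a', b'⟩ hp' hpp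
      simp only [coe_filter, mem_product, mem_filter, Set.mem_ofPred_eq, Prod.mk.injEq]
        at hp hp' hpp ⊢
      obtain ⟨⟨⟨ha, hka⟩, hb, hkb⟩, -⟩ := hp
      obtain ⟨⟨⟨ha', hka'⟩, hb', hkb'⟩, -⟩ := hp'
      exact ⟨hinj a ha a' ha' hpp.1 (hka.trans hka'.symm),
        hinj b hb b' hb' hpp.2 (hkb.trans hkb'.symm)⟩
  calc coll s Z q ≤ ∑ y ∈ range q, B.card *
        ∑ k ∈ B, ((s.filter fun a => key a = k).filter fun a => Z a % q = y).card ^ 2 := by
        rw [coll_eq_sum s Z hq]; exact sum_le_sum fun y _ => h1 y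
    _ = B.card * ∑ k ∈ B, coll (s.filter fun a => key a = k) Z q := by
        rw [← mul_sum, sum_comm]
        congr 1
        exact sum_congr rfl fun k _ => (coll_eq_sum _ Z hq).symm
    _ ≤ B.card * ∑ k ∈ B, coll A f q := by
        gcongr with k hk
        exact h2 k hk
    _ = _ := by rw [sum_const, smul_eq_mul]; ring

lemma card_primePow_divisors {n x : ℕ} (hn : 0 < n) (hx : n ≤ 2 ^ x) :
    (n.divisors.filter IsPrimePow).card ≤ x := by
  have h1 := ArithmeticFunction.vonMangoldt_sum (n := n)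
  have h2 : ((n.divisors.filter IsPrimePow).card : ℝ) * Real.log 2 ≤
      ∑ i ∈ n.divisors, ArithmeticFunction.vonMangoldt i := by
    rw [← nsmul_eq_mul, ← sum_const]
    refine le_trans (sum_le_sum fun i hi => ?_) (sum_le_sum_of_subset_of_nonneg
      (filter_subset IsPrimePow _) fun _ _ _ => ArithmeticFunction.vonMangoldt_nonneg)
    have hi' := (mem_filter.1 hi).2
    rw [ArithmeticFunction.vonMangoldt_apply, if_pos hi']
    have : 2 ≤ i.minFac := (Nat.minFac_prime hi'.ne_one).two_le
    gcongr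
    exact_mod_cast this
  have h3 : Real.log n ≤ x * Real.log 2 := by
    rw [← Real.log_pow]
    gcongr
    exact_mod_cast hx
  have h4 : 0 < Real.log 2 := Real.log_pos (by norm_num)
  have : ((n.divisors.filter IsPrimePow).card : ℝ) ≤ x := by
    apply le_of_mul_le_mul_right _ h4
    linarith
  exact_mod_cast this

lemma card_divisors_omega {n x : ℕ} (hn : 0 < n) (hx : n ≤ 2 ^ x) (h : ℕ) :
    (n.divisors.filter fun q => q.primeFactors.card ≤ h).card ≤ (x + 1) ^ h := by
  classical
  induction h with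
  | zero =>
    rw [pow_zero]
    refine card_le_one.2 fun a ha b hb => ?_
    have key : ∀ c ∈ n.divisors.filter fun q => q.primeFactors.card ≤ 0, c = 1 := by
      intro c hc
      obtain ⟨h1, h2⟩ := mem_filter.1 hc
      have : c.primeFactors = ∅ := card_eq_zero.1 (by omega)
      rcases Nat.primeFactors_eq_empty.1 this with h0 | h0
      · have := Nat.pos_of_mem_divisors h1; omega
      · exact h0
    rw [key a ha, key b hb]
  | succ h ih =>
    set Tt := insert 1 (n.divisors.filter IsPrimePow) with hT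
    have hTc : Tt.card ≤ x + 1 :=
      (card_insert_le _ _).trans (Nat.succ_le_succ (card_primePow_divisors hn hx))
    have hsub : (n.divisors.filter fun q => q.primeFactors.card ≤ h + 1) ⊆
        image (fun p : ℕ × ℕ => p.1 * p.2)
          (Tt ×ˢ n.divisors.filter fun q => q.primeFactors.card ≤ h) := by
      intro q hq
      obtain ⟨h1, h2⟩ := mem_filter.1 hq
      have hqn := Nat.dvd_of_mem_divisors h1
      have hq0 : q ≠ 0 := (Nat.pos_of_mem_divisors h1).ne'
      by_cases hq1 : q = 1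
      · subst hq1
        refine mem_image.2 ⟨(1, 1), ?_, rfl⟩
        simp [hT, hn.ne']
      · have hp := Nat.minFac_prime hq1
        set p := q.minFac
        have hpq : p ∣ q := Nat.minFac_dvd q
        refine mem_image.2 ⟨(ordProj[p] q, ordCompl[p] q), ?_, Nat.ordProj_mul_ordCompl_eq_self q p⟩
        simp only [mem_product, mem_filter, hT, mem_insert, Nat.mem_divisors]
        refine ⟨Or.inr ⟨⟨(Nat.ordProj_dvd q p).trans hqn, hn.ne'⟩, ?_⟩,
          ⟨(Nat.ordCompl_dvd q p).trans hqn, hn.ne'⟩, ?_⟩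
        · exact (hp.isPrimePow).pow (hp.factorization_pos_of_dvd hq0 hpq).ne'
        · have : (ordCompl[p] q).primeFactors ⊆ q.primeFactors.erase p := by
            intro r hr
            refine mem_erase.2 ⟨?_, Nat.primeFactors_mono (Nat.ordCompl_dvd q p) hq0 hr⟩
            rintro rfl
            exact Nat.not_dvd_ordCompl hp hq0 (Nat.dvd_of_mem_primeFactors hr)
          have h3 := card_le_card this
          rw [card_erase_of_mem (Nat.mem_primeFactors.2 ⟨hp, hpq, hq0⟩)] at h3
          omega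
    calc _ ≤ _ := card_le_card hsub
      _ ≤ _ := card_image_le
      _ = Tt.card * _ := card_product _ _
      _ ≤ (x + 1) * (x + 1) ^ h := Nat.mul_le_mul hTc ih
      _ = _ := by ring

/-- Averaging the collision count over moduli with few prime factors. -/
lemma sum_coll_le {ι : Type*} (s : Finset ι) (Z : ι → ℕ) (hinj : Set.InjOn Z s) {x h : ℕ}
    (hx : ∀ a ∈ s, Z a ≤ 2 ^ x) (F : Finset ℕ) (hF : ∀ q ∈ F, q.primeFactors.card ≤ h) :
    ∑ q ∈ F, coll s Z q ≤ F.card * s.card + s.card ^ 2 * (x + 1) ^ h := by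
  classical
  have h1 : ∑ q ∈ F, coll s Z q =
      ∑ p ∈ s ×ˢ s, (F.filter fun q => Z p.1 % q = Z p.2 % q).card := by
    unfold coll
    simp_rw [card_filter]
    exact sum_comm
  have h2 : ∀ p ∈ s ×ˢ s, (F.filter fun q => Z p.1 % q = Z p.2 % q).card ≤
      (if p.1 = p.2 then F.card else 0) + (x + 1) ^ h := by
    rintro ⟨a, b⟩ hp
    obtain ⟨ha, hb⟩ := mem_product.1 hp
    simp only at ha hb ⊢
    split_ifs with hab
    · exact (card_filter_le _ _).trans (Nat.le_add_right _ _)
    · have hne : Z a ≠ Z b := fun h' => hab (hinj ha hb h')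
      have hn : 0 < ((Z b : ℤ) - Z a).natAbs := by omega
      have hxx : ((Z b : ℤ) - Z a).natAbs ≤ 2 ^ x := by
        have := hx a ha; have := hx b hb; omega
      rw [zero_add]
      refine le_trans (card_le_card ?_) (card_divisors_omega hn hxx h)
      intro q hq
      obtain ⟨hq1, hq2⟩ := mem_filter.1 hq
      refine mem_filter.2 ⟨Nat.mem_divisors.2 ⟨?_, hn.ne'⟩, hF q hq1⟩
      exact Int.natCast_dvd.1 (Nat.modEq_iff_dvd.1 hq2)
  rw [h1]
  refine (sum_le_sum h2).trans (le_of_eq ?_)
  rw [sum_add_distrib, sum_const, card_product, smul_eq_mul, sum_product]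
  congr 1
  · rw [sum_congr rfl fun a ha => by rw [sum_ite_eq, if_pos ha], sum_const, smul_eq_mul, mul_comm]
  · ring

lemma radix_bound (D : ℕ → ℕ) (c : ℕ) (hD : ∀ l, D l * (c + 1) ≤ D (l + 1)) (K : ℕ) :
    ∀ u : Fin K → ℕ, (∀ l, u l ≤ c) → ∑ l : Fin K, D l * u l + D 0 ≤ D K := by
  induction K with
  | zero => intro u _; simp
  | succ K ih =>
    intro u hu
    rw [Fin.sum_univ_castSucc]
    have h1 := ih (fun l => u l.castSucc) fun l => hu _
    have h2 := hD K
    have h3 : D K * u (Fin.last K) ≤ D K * c := Nat.mul_le_mul_left _ (hu _)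
    simp only [Fin.val_castSucc, Fin.val_last]
    nlinarith

lemma radix_inj (D : ℕ → ℕ) (c : ℕ) (hD : ∀ l, D l * (c + 1) ≤ D (l + 1)) (h0 : 0 < D 0) (K : ℕ) :
    ∀ u u' : Fin K → ℕ, (∀ l, u l ≤ c) → (∀ l, u' l ≤ c) →
      ∑ l : Fin K, D l * u l = ∑ l : Fin K, D l * u' l → u = u' := by
  induction K with
  | zero => intro u u' _ _ _; exact Subsingleton.elim _ _
  | succ K ih =>
    intro u u' hu hu' h
    rw [Fin.sum_univ_castSucc, Fin.sum_univ_castSucc] at h
    have h1 := radix_bound D c hD K (fun l => u l.castSucc) fun l => hu _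
    have h2 := radix_bound D c hD K (fun l => u' l.castSucc) fun l => hu' _
    simp only [Fin.val_castSucc, Fin.val_last] at h
    have hl : u (Fin.last K) = u' (Fin.last K) := by
      rcases lt_trichotomy (u (Fin.last K)) (u' (Fin.last K)) with hlt | heq | hlt
      · have := Nat.mul_le_mul_left (D K) (Nat.succ_le_of_lt hlt)
        rw [Nat.mul_succ] at this
        omega
      · exact heq
      · have := Nat.mul_le_mul_left (D K) (Nat.succ_le_of_lt hlt)
        rw [Nat.mul_succ] at this
        omega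
    rw [hl] at h
    have h3 := ih (fun l => u l.castSucc) (fun l => u' l.castSucc) (fun l => hu _)
      (fun l => hu' _) (by omega)
    funext l
    refine Fin.lastCases hl (fun l => congrFun h3 l) l

/-- solutions of `q ∣ W k + c` in `k < N` -/
lemma card_dvd_linear {W c q : ℕ} (hc : Nat.Coprime c W) (_hq : 0 < q) (N : ℕ) :
    (((range N).filter fun k => q ∣ W * k + c).card : ℝ) ≤ N / q + 1 := by
  have h1 : ((range N).filter fun k => q ∣ W * k + c).card ≤ (range (N / q + 1)).card := by
    refine card_le_card_of_injOn (fun k => k / q) ?_ ?_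
    · intro k hk
      have hk' : k < N := mem_range.1 (mem_filter.1 (mem_coe.1 hk)).1
      simp only [coe_range, Set.mem_Iio]
      exact Nat.lt_succ_of_le (Nat.div_le_div_right hk'.le)
    · intro k hk k' hk' hkk
      have h1 := (mem_filter.1 (mem_coe.1 hk)).2
      have h2 := (mem_filter.1 (mem_coe.1 hk')).2
      have hcop : Nat.Coprime q W := by
        apply Nat.Coprime.coprime_dvd_left h1
        simpa using hc
      have hmod : k ≡ k' [MOD q] := by
        have : W * k + c ≡ W * k' + c [MOD q] :=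
          ((Nat.modEq_zero_iff_dvd).2 h1).trans ((Nat.modEq_zero_iff_dvd).2 h2).symm
        exact Nat.ModEq.cancel_left_of_coprime hcop (Nat.ModEq.add_right_cancel' c this)
      have e1 := Nat.div_add_mod k q
      have e2 := Nat.div_add_mod k' q
      simp only at hkk
      rw [← e1, ← e2, hkk, hmod]
  rw [card_range] at h1
  calc (_ : ℝ) ≤ ((N / q + 1 : ℕ) : ℝ) := by exact_mod_cast h1
    _ ≤ _ := by push_cast; gcongr; exact Nat.cast_div_le

lemma sum_weight {W c : ℕ} (hc : Nat.Coprime c W) (N : ℕ) (F : Finset ℕ) (hF : ∀ q ∈ F, 0 < q)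
    (w : ℕ → ℝ) (hw : ∀ q ∈ F, 0 ≤ w q) :
    ∑ k ∈ range N, ∑ q ∈ F.filter (fun q => q ∣ W * k + c), w q ≤
      ∑ q ∈ F, w q * (N / q + 1) := by
  simp_rw [sum_filter]
  rw [sum_comm]
  refine sum_le_sum fun q hq => ?_
  rw [← sum_filter, sum_const, nsmul_eq_mul, mul_comm]
  exact mul_le_mul_of_nonneg_left (card_dvd_linear hc (hF q hq) N) (hw q hq)

lemma card_divisors_le_two_mul {ρ s : ℕ} (hρ : 0 < ρ) (hs : ρ ≤ s * s) :
    ρ.divisors.card ≤ 2 * ((Icc 1 s).filter fun d => d ∣ ρ).card := by
  classical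
  have : ρ.divisors ⊆ ((Icc 1 s).filter fun d => d ∣ ρ) ∪
      image (fun d => ρ / d) ((Icc 1 s).filter fun d => d ∣ ρ) := by
    intro d hd
    have hd1 := Nat.dvd_of_mem_divisors hd
    have hd0 := Nat.pos_of_mem_divisors hd
    by_cases h : d ≤ s
    · exact mem_union_left _ (mem_filter.2 ⟨mem_Icc.2 ⟨hd0, h⟩, hd1⟩)
    · refine mem_union_right _ (mem_image.2 ⟨ρ / d, mem_filter.2 ⟨mem_Icc.2 ⟨?_, ?_⟩,
        Nat.div_dvd_of_dvd hd1⟩, Nat.div_div_self hd1 hρ.ne'⟩)
      · exact Nat.div_pos (Nat.le_of_dvd hρ hd1) hd0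
      · apply Nat.div_le_of_le_mul
        exact hs.trans (Nat.mul_le_mul_right _ (by omega))
  calc _ ≤ _ := card_le_card this
    _ ≤ _ := card_union_le _ _
    _ ≤ _ := by have := card_image_le (s := (Icc 1 s).filter fun d => d ∣ ρ) (f := fun d => ρ / d)
                omega

lemma two_pow_omega_le {ρ : ℕ} (hρ : ρ ≠ 0) : 2 ^ ρ.primeFactors.card ≤ ρ.divisors.card := by
  rw [Nat.card_divisors hρ]
  apply Finset.pow_card_le_prod
  intro p hp
  have := (Nat.prime_of_mem_primeFactors hp).factorization_pos_of_dvd hρ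
    (Nat.dvd_of_mem_primeFactors hp)
  omega

end Crest.Agent.R19
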