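import Crest.Agent.R19.A
import Crest.Agent.R19.C

/-! Row 19: the concrete random variables and their collision probabilities. -/

set_option autoImplicit false

namespace Crest.Agent.R19

open Finset

/-- collision probability -/
noncomputable def cp {ι : Type*} (s : Finset ι) (Z : ι → ℕ) (q : ℕ) : ℝ :=
  (coll s Z q : ℝ) / (s.card : ℝ) ^ 2

lemma cp_nonneg {ι : Type*} (s : Finset ι) (Z : ι → ℕ) (q : ℕ) : 0 ≤ cp s Z q := by
  unfold cp; positivity

lemma cp_conv {ι α : Type*} (s : Finset ι) (A : Finset α) (Z : ι → ℕ) (f : α → ℕ) {q n : ℕ}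
    (hn : 0 < n) (hs : s.card = A.card * n) (h : coll s Z q ≤ n ^ 2 * coll A f q) :
    cp s Z q ≤ cp A f q := by
  unfold cp
  have h' : (coll s Z q : ℝ) ≤ (n : ℝ) ^ 2 * coll A f q := by exact_mod_cast h
  have hn' : (0 : ℝ) < n := by exact_mod_cast hn
  rw [hs]
  push_cast
  calc _ ≤ (n : ℝ) ^ 2 * coll A f q / ((A.card : ℝ) * n) ^ 2 := by gcongr
    _ = _ := by
      rcases eq_or_ne (A.card : ℝ) 0 with h0 | h0
      · simp [h0]
      · field_simp

lemma sum_cp_le {ι : Type*} (s : Finset ι) (hs : s.Nonempty) (Z : ι → ℕ) (hinj : Set.InjOn Z s)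
    {x h : ℕ} (hx : ∀ a ∈ s, Z a ≤ 2 ^ x) (F : Finset ℕ)
    (hF : ∀ q ∈ F, q.primeFactors.card ≤ h) :
    ∑ q ∈ F, cp s Z q ≤ F.card / s.card + ((x + 1 : ℕ) : ℝ) ^ h := by
  have h1 := sum_coll_le s Z hinj hx F hF
  have h2 : (∑ q ∈ F, (coll s Z q : ℝ)) ≤
      F.card * s.card + (s.card : ℝ) ^ 2 * ((x + 1 : ℕ) : ℝ) ^ h := by exact_mod_cast h1
  have h3 : (0 : ℝ) < s.card := by exact_mod_cast hs.card_pos
  unfold cp
  rw [← sum_div, div_le_iff₀ (by positivity)]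
  refine h2.trans (le_of_eq ?_)
  field_simp

/-- product of a set of primes -/
def pr (ε : Finset ℕ) : ℕ := ∏ p ∈ ε, p

lemma pr_injOn {P : Finset ℕ} (hP : ∀ p ∈ P, p.Prime) : Set.InjOn pr (P.powerset : Set (Finset ℕ)) := by
  intro a ha b hb hab
  have ha' := mem_powerset.1 (mem_coe.1 ha)
  have hb' := mem_powerset.1 (mem_coe.1 hb)
  rw [← Nat.primeFactors_prod (s := a) fun p hp => hP p (ha' hp),
    ← Nat.primeFactors_prod (s := b) fun p hp => hP p (hb' hp)]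
  exact congrArg Nat.primeFactors hab

lemma pr_dvd {P ε : Finset ℕ} (h : ε ∈ P.powerset) : pr ε ∣ pr P :=
  prod_dvd_prod_of_subset _ _ _ (mem_powerset.1 h)

lemma pr_pos {P : Finset ℕ} (hP : ∀ p ∈ P, p.Prime) : 0 < pr P :=
  prod_pos fun p hp => (hP p hp).pos

lemma pr_le {P ε : Finset ℕ} (hP : ∀ p ∈ P, p.Prime) (h : ε ∈ P.powerset) : pr ε ≤ pr P :=
  Nat.le_of_dvd (pr_pos hP) (pr_dvd h)

lemma pr_le_pow {P : Finset ℕ} {y : ℕ} (hP : ∀ p ∈ P, p ≤ 2 ^ y) : pr P ≤ 2 ^ (y * P.card) := by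
  rw [pow_mul]
  exact Finset.prod_le_pow_card _ _ _ hP

lemma pr_coprime {P ε : Finset ℕ} {q : ℕ} (hP : ∀ p ∈ P, p.Prime) (hq : ∀ p ∈ P, ¬p ∣ q)
    (h : ε ⊆ P) : Nat.Coprime (pr ε) q :=
  Nat.Coprime.prod_left fun p hp => (Nat.Prime.coprime_iff_not_dvd (hP p (h hp))).2 (hq p (h hp))

lemma cp_powerset_le {P P' : Finset ℕ} {q : ℕ} (hq0 : 0 < q) (hP : ∀ p ∈ P, p.Prime)
    (hq : ∀ p ∈ P, ¬p ∣ q) (h : P' ⊆ P) : cp P.powerset pr q ≤ cp P'.powerset pr q := by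
  refine cp_conv _ _ _ _ (n := (P \ P').powerset.card) (card_pos.2 ⟨∅, by simp⟩) ?_ ?_
  · rw [card_powerset, card_powerset, card_powerset, ← pow_add, add_comm, card_sdiff_add_card_eq_card h]
  · refine coll_conv _ _ _ _ _ (fun ε => ε ∩ P') (fun ε => ε \ P') hq0 ?_ ?_ ?_ ?_
    · intro a _; exact mem_powerset.2 inter_subset_right
    · intro a ha; exact mem_powerset.2 (sdiff_subset_sdiff (mem_powerset.1 ha) Subset.rfl)
    · intro a _ b _ h1 h2
      rw [← sdiff_union_inter a P', ← sdiff_union_inter b P', h1, h2]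
    · intro a ha b _ h1 h2
      have e : ∀ c : Finset ℕ, pr c = pr (c ∩ P') * pr (c \ P') := fun c =>
        (prod_inter_mul_prod_sdiff c P' _).symm
      rw [e a, e b, ← h1] at h2
      refine Nat.ModEq.cancel_right_of_coprime ?_ h2
      exact (pr_coprime hP hq (sdiff_subset.trans (mem_powerset.1 ha))).symm

/-- the spread-out part -/
def V0 (P : Finset ℕ) (K : ℕ) : Finset (Fin K → Finset ℕ) :=
  Fintype.piFinset fun _ => P.powerset

def v0 (D : ℕ → ℕ) {K : ℕ} (f : Fin K → Finset ℕ) : ℕ := ∑ l : Fin K, D l * pr (f l)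

def V (P : Finset ℕ) (K : ℕ) : Finset (Finset ℕ × (Fin K → Finset ℕ)) := P.powerset ×ˢ V0 P K

def v (D : ℕ → ℕ) {K : ℕ} (a : Finset ℕ × (Fin K → Finset ℕ)) : ℕ := pr a.1 + v0 D a.2

lemma card_V0 (P : Finset ℕ) (K : ℕ) : (V0 P K).card = 2 ^ (P.card * K) := by
  simp [V0, Fintype.card_piFinset, pow_mul]

lemma cp_V_le_G (P : Finset ℕ) (K : ℕ) (D : ℕ → ℕ) {q : ℕ} (hq : 0 < q) :
    cp (V P K) (v D) q ≤ cp P.powerset pr q := by
  refine cp_conv _ _ _ _ (n := (V0 P K).card) (by rw [card_V0]; positivity) (card_product _ _) ?_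
  refine coll_conv _ _ _ _ _ Prod.fst Prod.snd hq (fun a ha => (mem_product.1 ha).1)
    (fun a ha => (mem_product.1 ha).2) (fun a _ b _ h1 h2 => Prod.ext h1 h2) ?_
  intro a _ b _ h1 h2
  unfold v at h2
  rw [h1] at h2
  exact Nat.ModEq.add_right_cancel' _ h2

lemma cp_V_le_V0 (P : Finset ℕ) (K : ℕ) (D : ℕ → ℕ) {q : ℕ} (hq : 0 < q) :
    cp (V P K) (v D) q ≤ cp (V0 P K) (v0 D) q := by
  refine cp_conv _ _ _ _ (n := P.powerset.card) (card_pos.2 ⟨∅, by simp⟩)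
    ((card_product _ _).trans (mul_comm _ _)) ?_
  refine coll_conv _ _ _ _ _ Prod.snd Prod.fst hq (fun a ha => (mem_product.1 ha).2)
    (fun a ha => (mem_product.1 ha).1) (fun a _ b _ h1 h2 => Prod.ext h2 h1) ?_
  intro a _ b _ h1 h2
  unfold v at h2
  rw [h1] at h2
  exact Nat.ModEq.add_left_cancel' _ h2

lemma v0_injOn {P : Finset ℕ} (hP : ∀ p ∈ P, p.Prime) (K : ℕ) {D : ℕ → ℕ}
    (hD : ∀ l, D l * (pr P + 1) ≤ D (l + 1)) (h0 : 0 < D 0) :
    Set.InjOn (v0 D) (V0 P K : Set (Fin K → Finset ℕ)) := by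
  intro a ha b hb hab
  have ha' := Fintype.mem_piFinset.1 (mem_coe.1 ha)
  have hb' := Fintype.mem_piFinset.1 (mem_coe.1 hb)
  have := radix_inj D (pr P) hD h0 K (fun l => pr (a l)) (fun l => pr (b l))
    (fun l => pr_le hP (ha' l)) (fun l => pr_le hP (hb' l)) hab
  funext l
  exact pr_injOn hP (mem_coe.2 (ha' l)) (mem_coe.2 (hb' l)) (congrFun this l)

lemma v0_le {P : Finset ℕ} (hP : ∀ p ∈ P, p.Prime) (K : ℕ) {D : ℕ → ℕ}
    (hD : ∀ l, D l * (pr P + 1) ≤ D (l + 1)) {a : Fin K → Finset ℕ} (ha : a ∈ V0 P K) :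
    v0 D a ≤ D K := by
  have ha' := Fintype.mem_piFinset.1 ha
  have := radix_bound D (pr P) hD K (fun l => pr (a l)) (fun l => pr_le hP (ha' l))
  unfold v0
  omega

lemma UF_of_small {P : Finset ℕ} (hP : ∀ p ∈ P, p.Prime) (K : ℕ) (D : ℕ → ℕ) {ρ E : ℕ}
    (hρ : 0 < ρ) (hcop : ∀ p ∈ P, ¬p ∣ ρ)
    (hsum : ∑ q ∈ ρ.divisors.erase 1, (q * cp (V P K) (v D) q) ^ 2 * cp P.powerset pr q < 1)
    (hE : 0 < E) (h1 : pr P * pr P ∣ E) (h2 : ∀ l < K, pr P * pr P * D l ∣ E) :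
    UF (4 * (K + 1)) ((ρ : ℚ) / E) := by
  have hG : (0 : ℝ) < P.powerset.card := by exact_mod_cast card_pos.2 ⟨∅, by simp⟩
  have hV : (0 : ℝ) < (V P K).card := by
    rw [V, card_product, card_V0]; push_cast; positivity
  obtain ⟨p, hp, hdvd⟩ := exists_solution P.powerset (V P K) pr (v D) hρ
    (fun a ha => pr_coprime hP hcop (mem_powerset.1 ha)) (by
      have e : ∀ q : ℕ, (P.powerset.card : ℝ) ^ 2 * (q * coll (V P K) (v D) q) ^ 2 *
          coll P.powerset pr q = ((P.powerset.card : ℝ) * (V P K).card) ^ 4 *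
          ((q * cp (V P K) (v D) q) ^ 2 * cp P.powerset pr q) := by
        intro q; unfold cp; field_simp
      simp_rw [e]
      rw [← mul_sum]
      exact mul_lt_of_lt_one_right (by positivity) hsum)
  have := UF.of_dvd_sum (ρ := ρ) (univ : Finset (Fin 4 × Option (Fin K)))
    (fun z => pr (p z.1).1 * z.2.elim (pr (p z.1).2.1) fun l => D l * pr ((p z.1).2.2 l)) hE
    ?_ univ_nonempty ?_
  · simpa using this
  · rintro ⟨m, z⟩ -
    have hm := mem_product.1 (hp m)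
    have hm2 := mem_product.1 hm.2
    cases z with
    | none => exact (Nat.mul_dvd_mul (pr_dvd hm.1) (pr_dvd hm2.1)).trans h1
    | some l =>
      refine Dvd.dvd.trans ?_ (h2 l l.2)
      simp only [Option.elim]
      rw [mul_assoc, mul_comm (pr P) (D l)]
      exact Nat.mul_dvd_mul (pr_dvd hm.1)
        (Nat.mul_dvd_mul_left _ (pr_dvd (Fintype.mem_piFinset.1 hm2.2 l)))
  · convert hdvd using 1
    rw [Fintype.sum_prod_type]
    refine sum_congr rfl fun m _ => ?_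
    dsimp only
    rw [← mul_sum, Fintype.sum_option]
    rfl

end Crest.Agent.R19
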