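import Crest.Agent.R19.D

/-! Row 19: most moduli `ρ = W k + c` are good. -/

set_option autoImplicit false

namespace Crest.Agent.R19

open Finset

structure Setup where
  m : ℕ
  J : ℕ
  P : Finset ℕ
  D : ℕ → ℕ
  K : ℕ
  x : ℕ
  N : ℕ
  hm : 0 < m
  hJ : J = 2 ^ (m + 5)
  hP : ∀ p ∈ P, p.Prime
  hPl : ∀ p ∈ P, J ^ 2 ≤ p
  hPu : ∀ p ∈ P, p ≤ 2 ^ (3 * (m + 5))
  hPc : P.card = J
  hD : ∀ l, D l * (pr P + 1) ≤ D (l + 1)
  hD0 : 0 < D 0
  hx : D K ≤ 2 ^ x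
  hN : 2 ^ J ≤ N
  hWN : primorial (2 ^ m) * N ≤ 2 ^ (J * K)
  hK : K + 1 ≤ J
  H1 : ∀ i h, m ≤ i → h ≤ 3 * (m + 5) → m * h ≤ i →
    (3 * (m + 5) * min i J + 1) ^ (7 * h) ≤ 2 ^ min i J
  H2 : (x + 1) ^ (7 * (3 * (m + 5))) ≤ 2 ^ J
  H3 : 6 / (J : ℝ) + 120 * (9 / 10 : ℝ) ^ m + 12 * (J : ℝ) ^ 2 * 4 ^ (2 ^ m) * (9 / 10 : ℝ) ^ J
    < 1 / 2

lemma le_of_pow_seven {E j : ℕ} (h : E ^ 7 ≤ 2 ^ j) : (E : ℝ) ≤ (10 / 9 : ℝ) ^ j := by
  have h1 : (E : ℝ) ^ 7 ≤ 2 ^ j := by exact_mod_cast h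
  have h2 : (2 : ℝ) ^ j ≤ ((10 / 9 : ℝ) ^ j) ^ 7 := by
    rw [← pow_mul, mul_comm, pow_mul]
    gcongr
    norm_num
  exact le_of_pow_le_pow_left₀ (by norm_num) (by positivity) (h1.trans h2)

lemma pow_six_le (j : ℕ) : ((10 / 9 : ℝ) ^ j) ^ 6 ≤ 2 ^ j := by
  rw [← pow_mul, mul_comm, pow_mul]
  gcongr
  norm_num

namespace Setup

variable (S : Setup)

/-- a subset of the pool with `min i J` elements -/
noncomputable def Pj (i : ℕ) : Finset ℕ :=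
  (Finset.exists_subset_card_eq (s := S.P) (n := min i S.J)
    (by rw [S.hPc]; exact min_le_right _ _)).choose

lemma Pj_spec (i : ℕ) : S.Pj i ⊆ S.P ∧ (S.Pj i).card = min i S.J :=
  (Finset.exists_subset_card_eq (s := S.P) (n := min i S.J)
    (by rw [S.hPc]; exact min_le_right _ _)).choose_spec

def F (i : ℕ) : Finset ℕ :=
  (Ico (2 ^ i) (2 ^ (i + 1))).filter fun q =>
    q.primeFactors.card ≤ 3 * (S.m + 5) ∧ S.m * q.primeFactors.card ≤ i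

noncomputable def y (i : ℕ) : ℝ := (10 / 9 : ℝ) ^ min i S.J

noncomputable def cG (i q : ℕ) : ℝ := cp (S.Pj i).powerset pr q

noncomputable def cV (i q : ℕ) : ℝ :=
  if i ≤ S.J then S.cG i q else cp (V0 S.P S.K) (v0 S.D) q

noncomputable def β (i q : ℕ) : ℝ := q * S.cV i q / S.y i ^ 2 + S.y i ^ 4 * S.cG i q

lemma one_le_y (i : ℕ) : 1 ≤ S.y i := one_le_pow₀ (by norm_num)

lemma cG_nonneg (i q : ℕ) : 0 ≤ S.cG i q := cp_nonneg _ _ _

lemma cV_nonneg (i q : ℕ) : 0 ≤ S.cV i q := by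
  unfold cV; split_ifs
  exacts [S.cG_nonneg _ _, cp_nonneg _ _ _]

lemma β_nonneg (i q : ℕ) : 0 ≤ S.β i q := by
  have := S.cG_nonneg i q
  have := S.cV_nonneg i q
  have := S.one_le_y i
  unfold β; positivity

lemma card_F (i : ℕ) : ((S.F i).card : ℝ) ≤ 2 ^ i := by
  have : (S.F i).card ≤ 2 ^ i := by
    refine (card_filter_le _ _).trans (le_of_eq ?_)
    rw [Nat.card_Ico, pow_succ]; omega
  exact_mod_cast this

lemma sum_cG {i : ℕ} (hi : S.m ≤ i) :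
    ∑ q ∈ S.F i, S.cG i q ≤ 2 ^ i / 2 ^ min i S.J + S.y i := by
  have hs := S.Pj_spec i
  have h := sum_cp_le (S.Pj i).powerset ⟨∅, by simp⟩ pr (pr_injOn fun p hp => S.hP p (hs.1 hp))
    (x := 3 * (S.m + 5) * min i S.J) (h := min (3 * (S.m + 5)) (i / S.m)) (fun a ha => by
      refine (pr_le (fun p hp => S.hP p (hs.1 hp)) ha).trans ?_
      rw [← hs.2]
      exact pr_le_pow fun p hp => S.hPu p (hs.1 hp)) (S.F i) (fun q hq => by
      obtain ⟨-, h1, h2⟩ := mem_filter.1 hq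
      exact le_min h1 ((Nat.le_div_iff_mul_le S.hm).2 (by rwa [mul_comm])))
  refine h.trans (add_le_add ?_ ?_)
  · rw [card_powerset, hs.2]
    push_cast
    gcongr
    exact S.card_F i
  · have := S.H1 i (min (3 * (S.m + 5)) (i / S.m)) hi (min_le_left _ _)
      ((Nat.mul_le_mul_left _ (min_le_right _ _)).trans (Nat.mul_div_le _ _))
    rw [mul_comm 7, pow_mul] at this
    exact_mod_cast le_of_pow_seven this

lemma sum_cV {i : ℕ} (hi : S.m ≤ i) (hi2 : i ≤ S.J * S.K) :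
    ∑ q ∈ S.F i, S.cV i q ≤ 2 * S.y i := by
  have hy := S.one_le_y i
  unfold cV
  split_ifs with hJ
  · have := S.sum_cG hi
    rw [min_eq_left hJ, div_self (by positivity)] at this
    linarith
  · have h := sum_cp_le (V0 S.P S.K) (card_pos.1 (by rw [card_V0]; positivity)) (v0 S.D)
      (v0_injOn S.hP S.K S.hD S.hD0) (x := S.x) (h := 3 * (S.m + 5))
      (fun a ha => (v0_le S.hP S.K S.hD ha).trans S.hx) (S.F i)
      (fun q hq => (mem_filter.1 hq).2.1)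
    have h2 := S.H2
    rw [mul_comm 7, pow_mul] at h2
    have h3 : (((S.x + 1 : ℕ) : ℝ)) ^ (3 * (S.m + 5)) ≤ S.y i := by
      unfold y
      rw [min_eq_right (by omega)]
      exact_mod_cast le_of_pow_seven h2
    have h4 : ((S.F i).card : ℝ) / (V0 S.P S.K).card ≤ 1 := by
      rw [card_V0, S.hPc, div_le_one (by positivity)]
      refine (S.card_F i).trans ?_
      push_cast
      exact pow_le_pow_right₀ (by norm_num) hi2
    linarith

lemma sum_β {i : ℕ} (hi : S.m ≤ i) (hi2 : i ≤ S.J * S.K) :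
    ∑ q ∈ S.F i, S.β i q ≤ 6 * 2 ^ i / S.y i := by
  have hy := S.one_le_y i
  have h1 := S.sum_cV hi hi2
  have h2 := S.sum_cG hi
  have h6 : S.y i ^ 6 ≤ 2 ^ min i S.J := pow_six_le _
  have h7 : (2 : ℝ) ^ min i S.J ≤ 2 ^ i := pow_le_pow_right₀ (by norm_num) (min_le_left _ _)
  have h3 : ∑ q ∈ S.F i, S.cG i q ≤ 2 * 2 ^ i / S.y i ^ 5 := by
    refine h2.trans ?_
    have a1 : (2 : ℝ) ^ i / 2 ^ min i S.J ≤ 2 ^ i / S.y i ^ 5 := by
      gcongr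
      refine le_trans ?_ h6
      exact pow_le_pow_right₀ hy (by norm_num)
    have a2 : S.y i ≤ 2 ^ i / S.y i ^ 5 := by
      rw [le_div_iff₀ (by positivity)]
      calc _ = S.y i ^ 6 := by ring
        _ ≤ _ := h6.trans h7
    have : 2 * (2 : ℝ) ^ i / S.y i ^ 5 = 2 ^ i / S.y i ^ 5 + 2 ^ i / S.y i ^ 5 := by ring
    linarith
  calc ∑ q ∈ S.F i, S.β i q ≤
        ∑ q ∈ S.F i, (2 ^ (i + 1) / S.y i ^ 2 * S.cV i q + S.y i ^ 4 * S.cG i q) := by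
        refine sum_le_sum fun q hq => ?_
        have hq' : (q : ℝ) ≤ 2 ^ (i + 1) := by
          exact_mod_cast (mem_Ico.1 (mem_filter.1 hq).1).2.le
        have := S.cV_nonneg i q
        unfold β
        rw [div_mul_eq_mul_div]
        gcongr
    _ = 2 ^ (i + 1) / S.y i ^ 2 * ∑ q ∈ S.F i, S.cV i q + S.y i ^ 4 * ∑ q ∈ S.F i, S.cG i q := by
        rw [sum_add_distrib, mul_sum, mul_sum]
    _ ≤ 2 ^ (i + 1) / S.y i ^ 2 * (2 * S.y i) + S.y i ^ 4 * (2 * 2 ^ i / S.y i ^ 5) := by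
        gcongr
    _ = _ := by field_simp; ring

/-- the modulus-level weight -/
def W : ℕ := primorial (2 ^ S.m)

def I : ℕ := Nat.log 2 (S.W * S.N) + 1

noncomputable def bad (ρ : ℕ) : ℝ :=
  ∑ _p ∈ S.P.filter (fun p => p ∣ ρ), (1 : ℝ) +
    ∑ _d ∈ (Icc 1 S.N).filter (fun d => d ∣ ρ), 2 / (S.J : ℝ) ^ 3 +
    ∑ i ∈ Ico S.m S.I, ∑ q ∈ (S.F i).filter (fun q => q ∣ ρ), S.β i q

lemma bad_nonneg (ρ : ℕ) : 0 ≤ S.bad ρ := by
  unfold bad
  have : 0 ≤ ∑ i ∈ Ico S.m S.I, ∑ q ∈ (S.F i).filter (fun q => q ∣ ρ), S.β i q :=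
    sum_nonneg fun i _ => sum_nonneg fun q _ => S.β_nonneg i q
  positivity

lemma W_pos : 0 < S.W := primorial_pos _

lemma W_le : S.W ≤ 4 ^ 2 ^ S.m := primorial_le_four_pow _

lemma J_ge : 32 ≤ S.J := by
  rw [S.hJ, pow_add]
  have : 1 ≤ 2 ^ S.m := Nat.one_le_two_pow
  omega

lemma W_le_N : S.W ≤ S.N := by
  refine S.W_le.trans (le_trans ?_ S.hN)
  rw [show (4 : ℕ) = 2 ^ 2 from rfl, ← pow_mul]
  apply Nat.pow_le_pow_right (by norm_num)
  rw [S.hJ, pow_add]; omega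

lemma N_pos : 0 < S.N := lt_of_lt_of_le S.W_pos S.W_le_N

lemma good {ρ E : ℕ} (hρ : 0 < ρ) (hρW : Nat.Coprime ρ S.W) (hρN : ρ ≤ S.W * S.N)
    (hbad : S.bad ρ < 1) (hE : 0 < E) (h1 : pr S.P * pr S.P ∣ E)
    (h2 : ∀ l < S.K, pr S.P * pr S.P * S.D l ∣ E) : UF (4 * (S.K + 1)) ((ρ : ℚ) / E) := by
  have hJ : (0 : ℝ) < S.J := by have := S.J_ge; positivity
  have n1 : 0 ≤ ∑ _p ∈ S.P.filter (fun p => p ∣ ρ), (1 : ℝ) := by positivity
  have n2 : 0 ≤ ∑ _d ∈ (Icc 1 S.N).filter (fun d => d ∣ ρ), 2 / (S.J : ℝ) ^ 3 := by positivity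
  have n3 : 0 ≤ ∑ i ∈ Ico S.m S.I, ∑ q ∈ (S.F i).filter (fun q => q ∣ ρ), S.β i q :=
    sum_nonneg fun i _ => sum_nonneg fun q _ => S.β_nonneg i q
  unfold bad at hbad
  have ha : ∀ p ∈ S.P, ¬p ∣ ρ := by
    intro p hp hd
    have : (1 : ℝ) ≤ ∑ _p ∈ S.P.filter (fun p => p ∣ ρ), (1 : ℝ) :=
      single_le_sum (f := fun _ => (1 : ℝ)) (fun _ _ => zero_le_one) (mem_filter.2 ⟨hp, hd⟩)
    linarith
  have hb : ρ.primeFactors.card ≤ 3 * (S.m + 5) := by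
    have b1 : ∑ _d ∈ (Icc 1 S.N).filter (fun d => d ∣ ρ), 2 / (S.J : ℝ) ^ 3 < 1 := by linarith
    rw [sum_const, nsmul_eq_mul, ← mul_div_assoc, div_lt_one (by positivity)] at b1
    have b2 : ((Icc 1 S.N).filter (fun d => d ∣ ρ)).card * 2 < S.J ^ 3 := by exact_mod_cast b1
    have b3 := card_divisors_le_two_mul hρ (hρN.trans (Nat.mul_le_mul_right _ S.W_le_N))
    have b4 := two_pow_omega_le hρ.ne'
    have b5 : 2 ^ ρ.primeFactors.card < 2 ^ (3 * (S.m + 5)) := by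
      rw [mul_comm 3, pow_mul, ← S.hJ]; omega
    exact ((Nat.pow_lt_pow_iff_right (by norm_num)).1 b5).le
  have hc : ∑ i ∈ Ico S.m S.I, ∑ q ∈ (S.F i).filter (fun q => q ∣ ρ), S.β i q < 1 := by linarith
  refine UF_of_small S.hP S.K S.D hρ ha (lt_of_le_of_lt ?_ hc) hE h1 h2
  have hrough : ∀ p, p.Prime → p ∣ ρ → 2 ^ S.m < p := by
    intro p hp hd
    by_contra hlt
    have : p ∣ S.W := (hp.dvd_primorial_iff).2 (not_lt.1 hlt)
    exact hp.one_lt.ne' (Nat.eq_one_of_dvd_coprimes hρW hd this)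
  have hmem : ∀ q ∈ ρ.divisors.erase 1, Nat.log 2 q ∈ Ico S.m S.I ∧ q ∈ S.F (Nat.log 2 q) := by
    intro q hq
    obtain ⟨hq1, hq⟩ := mem_erase.1 hq
    have hqd := Nat.dvd_of_mem_divisors hq
    have hq0 := Nat.pos_of_mem_divisors hq
    have hp := Nat.minFac_prime hq1
    have hl : 2 ^ S.m ≤ q :=
      (hrough _ hp ((Nat.minFac_dvd q).trans hqd)).le.trans (Nat.minFac_le hq0)
    refine ⟨mem_Ico.2 ⟨Nat.le_log_of_pow_le (by norm_num) hl, Nat.lt_succ_of_le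
      (Nat.log_mono_right ((Nat.le_of_dvd hρ hqd).trans hρN))⟩, mem_filter.2
      ⟨mem_Ico.2 ⟨Nat.pow_log_le_self 2 hq0.ne', Nat.lt_pow_succ_log_self (by norm_num) q⟩,
        (card_le_card (Nat.primeFactors_mono hqd hρ.ne')).trans hb, ?_⟩⟩
    apply Nat.le_log_of_pow_le (by norm_num)
    rw [pow_mul]
    refine le_trans (Finset.pow_card_le_prod _ (fun p => p) _ fun p hp => ?_)
      (Nat.le_of_dvd hq0 (Nat.prod_primeFactors_dvd q))
    exact (hrough p (Nat.prime_of_mem_primeFactors hp)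
      ((Nat.dvd_of_mem_primeFactors hp).trans hqd)).le
  rw [← sum_fiberwise_of_maps_to (g := Nat.log 2) (t := Ico S.m S.I) fun q hq => (hmem q hq).1]
  refine sum_le_sum fun i hi => ?_
  have hsub : ((ρ.divisors.erase 1).filter fun q => Nat.log 2 q = i) ⊆
      (S.F i).filter (fun q => q ∣ ρ) := by
    intro q hq
    obtain ⟨hq1, rfl⟩ := mem_filter.1 hq
    exact mem_filter.2 ⟨(hmem q hq1).2, Nat.dvd_of_mem_divisors (mem_of_mem_erase hq1)⟩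
  refine le_trans (sum_le_sum fun q hq => ?_)
    (sum_le_sum_of_subset_of_nonneg hsub fun q _ _ => S.β_nonneg i q)
  have hq' := hsub hq
  have hqd : q ∣ ρ := (mem_filter.1 hq').2
  have hq0 : 0 < q := Nat.pos_of_dvd_of_pos hqd hρ
  have hβ : S.β i q ≤ 1 := by
    have c1 : S.β i q ≤ ∑ q ∈ (S.F i).filter (fun q => q ∣ ρ), S.β i q :=
      single_le_sum (f := fun q => S.β i q) (fun q _ => S.β_nonneg i q) hq'
    have c2 : ∑ q ∈ (S.F i).filter (fun q => q ∣ ρ), S.β i q ≤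
        ∑ i ∈ Ico S.m S.I, ∑ q ∈ (S.F i).filter (fun q => q ∣ ρ), S.β i q :=
      single_le_sum (f := fun i => ∑ q ∈ (S.F i).filter (fun q => q ∣ ρ), S.β i q)
        (fun i _ => sum_nonneg fun q _ => S.β_nonneg i q) hi
    linarith
  have hG : cp S.P.powerset pr q ≤ S.cG i q :=
    cp_powerset_le hq0 S.hP (fun p hp h => ha p hp (h.trans hqd)) (S.Pj_spec i).1
  have hV : cp (V S.P S.K) (v S.D) q ≤ S.cV i q := by
    unfold cV; split_ifs
    · exact (cp_V_le_G _ _ _ hq0).trans hG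
    · exact cp_V_le_V0 _ _ _ hq0
  have hy := S.one_le_y i
  have p1 := S.cG_nonneg i q
  have p2 := S.cV_nonneg i q
  have p3 := cp_nonneg (V S.P S.K) (v S.D) q
  have p4 := cp_nonneg S.P.powerset pr q
  have p5 : 0 ≤ q * S.cV i q / S.y i ^ 2 := by positivity
  have p6 : 0 ≤ S.y i ^ 4 * S.cG i q := by positivity
  calc (q * cp (V S.P S.K) (v S.D) q) ^ 2 * cp S.P.powerset pr q
      ≤ (q * S.cV i q) ^ 2 * S.cG i q := by gcongr
    _ = (q * S.cV i q / S.y i ^ 2) ^ 2 * (S.y i ^ 4 * S.cG i q) := by field_simp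
    _ ≤ 1 ^ 2 * S.β i q := by
        unfold β at hβ ⊢
        gcongr <;> linarith
    _ = _ := by ring

end Setup

end Crest.Agent.R19
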