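import Crest.Agent.R19.E

/-! Row 19: the Markov estimate and the splitting of `W N / E`. -/

set_option autoImplicit false

namespace Crest.Agent.R19

open Finset

lemma geom_tail (m I : ℕ) : ∑ i ∈ Ico m I, (9 / 10 : ℝ) ^ i ≤ 10 * (9 / 10 : ℝ) ^ m := by
  have := geom_sum_Ico_le_of_lt_one (x := (9 / 10 : ℝ)) (by norm_num) (by norm_num) (m := m) (n := I)
  refine this.trans (le_of_eq ?_)
  ring

namespace Setup

variable (S : Setup)

lemma I_le : S.I ≤ S.J * S.K + 1 := by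
  unfold I
  have h := Nat.log_mono_right (b := 2) S.hWN
  rw [Nat.log_pow (by norm_num)] at h
  exact Nat.succ_le_succ h

lemma I_le' : S.I ≤ S.J ^ 2 := by
  have := S.I_le
  have := S.hK
  have := S.J_ge
  nlinarith

lemma sq_J_le : (S.J : ℝ) ^ 2 ≤ S.N := by
  have h1 : S.J ^ 2 ≤ 2 ^ S.J := by
    have h := S.J_ge
    generalize S.J = n at h
    induction n, h using Nat.le_induction with
    | base => norm_num
    | succ n hn ih => rw [pow_succ 2 n]; nlinarith
  exact_mod_cast h1.trans S.hN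

lemma sum_bad {c : ℕ} (hc : Nat.Coprime c S.W) :
    ∑ k ∈ range S.N, S.bad (S.W * k + c) < S.N / 2 := by
  have hJ : (32 : ℝ) ≤ S.J := by exact_mod_cast S.J_ge
  have hJ0 : (0 : ℝ) < S.J := by linarith
  have hN : (0 : ℝ) < S.N := by exact_mod_cast S.N_pos
  have hJN := S.sq_J_le
  have h1 : ∑ k ∈ range S.N, ∑ _p ∈ S.P.filter (fun p => p ∣ S.W * k + c), (1 : ℝ) ≤
      (S.N : ℝ) * (2 / S.J) := by
    refine (sum_weight hc S.N S.P (fun p hp => (S.hP p hp).pos) (fun _ => (1 : ℝ))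
      (fun _ _ => zero_le_one)).trans ?_
    calc _ ≤ ∑ _p ∈ S.P, ((S.N : ℝ) / S.J ^ 2 + 1) := by
          refine sum_le_sum fun p hp => ?_
          have : (S.J : ℝ) ^ 2 ≤ p := by exact_mod_cast S.hPl p hp
          rw [one_mul]
          gcongr
      _ = (S.N : ℝ) / S.J + S.J := by rw [sum_const, nsmul_eq_mul, S.hPc]; field_simp
      _ ≤ (S.N : ℝ) / S.J + S.N / S.J := by
          gcongr
          rw [le_div_iff₀ hJ0]; linarith
      _ = _ := by ring
  have h2 : ∑ k ∈ range S.N, ∑ _d ∈ (Icc 1 S.N).filter (fun d => d ∣ S.W * k + c),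
      (2 / (S.J : ℝ) ^ 3 : ℝ) ≤ (S.N : ℝ) * (4 / S.J) := by
    refine (sum_weight hc S.N (Icc 1 S.N) (fun p hp => (mem_Icc.1 hp).1)
      (fun _ => 2 / (S.J : ℝ) ^ 3) (fun _ _ => by positivity)).trans ?_
    have hh : ∑ d ∈ Icc 1 S.N, ((d : ℝ))⁻¹ ≤ 1 + Real.log S.N := by
      have := harmonic_le_one_add_log S.N
      rw [harmonic_eq_sum_Icc] at this
      push_cast at this
      exact this
    have hlog : Real.log S.N ≤ (S.J : ℝ) ^ 2 := by
      have a1 : S.N ≤ 2 ^ (S.J ^ 2) := by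
        refine le_trans (Nat.le_mul_of_pos_left _ S.W_pos) (S.hWN.trans ?_)
        apply Nat.pow_le_pow_right (by norm_num)
        have := S.hK
        nlinarith
      have a2 : (S.N : ℝ) ≤ 2 ^ (S.J ^ 2) := by exact_mod_cast a1
      calc Real.log S.N ≤ Real.log (2 ^ (S.J ^ 2)) := Real.log_le_log hN a2
        _ = (S.J : ℝ) ^ 2 * Real.log 2 := by rw [Real.log_pow]; push_cast; ring
        _ ≤ (S.J : ℝ) ^ 2 * 1 := by
            gcongr
            have := Real.log_two_lt_d9; linarith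
        _ = _ := mul_one _
    rw [← mul_sum, sum_add_distrib, sum_const, Nat.card_Icc, nsmul_eq_mul]
    simp_rw [div_eq_mul_inv (S.N : ℝ)]
    rw [← mul_sum]
    calc _ ≤ 2 / (S.J : ℝ) ^ 3 * (S.N * (1 + (S.J : ℝ) ^ 2) + S.N) := by
          gcongr
          · exact hh.trans (by linarith)
          · simp
      _ = S.N * (2 * (2 + (S.J : ℝ) ^ 2) / S.J ^ 3) := by ring
      _ ≤ _ := by
          gcongr S.N * ?_
          rw [div_le_div_iff₀ (by positivity) hJ0]
          nlinarith [mul_pos hJ0 hJ0]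
  have h3 : ∑ k ∈ range S.N, ∑ i ∈ Ico S.m S.I,
      ∑ q ∈ (S.F i).filter (fun q => q ∣ S.W * k + c), S.β i q ≤
      S.N * (120 * (9 / 10 : ℝ) ^ S.m +
        12 * (S.J : ℝ) ^ 2 * 4 ^ (2 ^ S.m) * (9 / 10 : ℝ) ^ S.J) := by
    rw [sum_comm]
    have hW : (S.W : ℝ) ≤ 4 ^ (2 ^ S.m) := by exact_mod_cast S.W_le
    have hW1 : (1 : ℝ) ≤ S.W := by exact_mod_cast S.W_pos
    have key : ∀ i ∈ Ico S.m S.I, ∑ k ∈ range S.N,
        ∑ q ∈ (S.F i).filter (fun q => q ∣ S.W * k + c), S.β i q ≤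
        S.N * (12 * (9 / 10 : ℝ) ^ i + 12 * 4 ^ (2 ^ S.m) * (9 / 10 : ℝ) ^ S.J) := by
      intro i hi
      obtain ⟨hi1, hi2⟩ := mem_Ico.1 hi
      have hpos : ∀ q ∈ S.F i, 2 ^ i ≤ q := fun q hq => (mem_Ico.1 (mem_filter.1 hq).1).1
      refine (sum_weight hc S.N (S.F i) (fun q hq => lt_of_lt_of_le (by positivity) (hpos q hq))
        (S.β i) (fun q _ => S.β_nonneg i q)).trans ?_
      have hy := S.one_le_y i
      have hb := S.sum_β hi1 (by have := S.I_le; omega)
      have hWN : (2 : ℝ) ^ i ≤ S.W * S.N := by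
        have : 2 ^ i ≤ S.W * S.N :=
          Nat.pow_le_of_le_log (Nat.mul_pos S.W_pos S.N_pos).ne' (by unfold I at hi2; omega)
        exact_mod_cast this
      calc _ ≤ ∑ q ∈ S.F i, S.β i q * (S.N / 2 ^ i + 1) := by
            refine sum_le_sum fun q hq => ?_
            have := S.β_nonneg i q
            have : (2 : ℝ) ^ i ≤ q := by exact_mod_cast hpos q hq
            gcongr
        _ ≤ 6 * 2 ^ i / S.y i * (S.N / 2 ^ i + 1) := by
            rw [← sum_mul]; gcongr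
        _ = 6 * (S.N + 2 ^ i) * (9 / 10 : ℝ) ^ min i S.J := by
            unfold y
            rw [show (9 / 10 : ℝ) = (10 / 9)⁻¹ by norm_num, inv_pow]
            field_simp
        _ ≤ _ := by
            rcases le_total i S.J with h | h
            · rw [min_eq_left h]
              have : (2 : ℝ) ^ i ≤ S.N := by
                have : 2 ^ i ≤ S.N := (Nat.pow_le_pow_right (by norm_num) h).trans S.hN
                exact_mod_cast this
              have p : 0 ≤ (S.N : ℝ) * (12 * 4 ^ (2 ^ S.m) * (9 / 10 : ℝ) ^ S.J) := by positivity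
              have p2 : 6 * (S.N + 2 ^ i) * (9 / 10 : ℝ) ^ i ≤
                  6 * (S.N + S.N) * (9 / 10 : ℝ) ^ i := by gcongr
              linarith
            · rw [min_eq_right h]
              have p : 0 ≤ (S.N : ℝ) * (12 * (9 / 10 : ℝ) ^ i) := by positivity
              have p1 : (S.N : ℝ) ≤ 4 ^ (2 ^ S.m) * S.N :=
                le_mul_of_one_le_left hN.le (hW1.trans hW)
              have p3 : (2 : ℝ) ^ i ≤ 4 ^ (2 ^ S.m) * S.N := hWN.trans (by gcongr)
              have p2 : 6 * (S.N + 2 ^ i) * (9 / 10 : ℝ) ^ S.J ≤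
                  6 * (4 ^ (2 ^ S.m) * S.N + 4 ^ (2 ^ S.m) * S.N) * (9 / 10 : ℝ) ^ S.J := by
                gcongr
              linarith
    refine (sum_le_sum key).trans ?_
    rw [← mul_sum, sum_add_distrib, ← mul_sum, sum_const, Nat.card_Ico, nsmul_eq_mul]
    have g1 := geom_tail S.m S.I
    have g2 : ((S.I - S.m : ℕ) : ℝ) ≤ (S.J : ℝ) ^ 2 := by
      exact_mod_cast (Nat.sub_le _ _).trans S.I_le'
    have g3 : ((S.I - S.m : ℕ) : ℝ) * (12 * 4 ^ (2 ^ S.m) * (9 / 10 : ℝ) ^ S.J) ≤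
        (S.J : ℝ) ^ 2 * (12 * 4 ^ (2 ^ S.m) * (9 / 10 : ℝ) ^ S.J) := by gcongr
    gcongr S.N * ?_
    linarith
  unfold bad
  rw [sum_add_distrib, sum_add_distrib]
  have H := mul_lt_mul_of_pos_left S.H3 hN
  have e : (6 : ℝ) / S.J = 2 / S.J + 4 / S.J := by ring
  rw [e] at H
  linarith

lemma main {E : ℕ} (hE : 0 < E) (h1 : pr S.P * pr S.P ∣ E)
    (h2 : ∀ l < S.K, pr S.P * pr S.P * S.D l ∣ E) :
    UF (8 * (S.K + 1)) (((S.W * S.N : ℕ) : ℚ) / E) := by
  have hW2 : 2 ≤ S.W := by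
    have : 2 ∣ S.W := (Nat.prime_two.dvd_primorial_iff).2 (by
      calc 2 = 2 ^ 1 := rfl
        _ ≤ _ := Nat.pow_le_pow_right (by norm_num) S.hm)
    exact Nat.le_of_dvd S.W_pos this
  have c1 : Nat.Coprime 1 S.W := Nat.coprime_one_left _
  have c2 : Nat.Coprime (S.W - 1) S.W := by
    have : S.W = S.W - 1 + 1 := by omega
    rw [this]; simp
  have b1 := S.sum_bad c1
  have b2 := S.sum_bad c2
  rw [← sum_range_reflect] at b2
  have : ∑ k ∈ range S.N, (S.bad (S.W * k + 1) + S.bad (S.W * (S.N - 1 - k) + (S.W - 1))) <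
      ∑ _k ∈ range S.N, (1 : ℝ) := by
    rw [sum_add_distrib, sum_const, card_range, nsmul_eq_mul]; linarith
  obtain ⟨k, hk, hlt⟩ := exists_lt_of_sum_lt this
  have hk := mem_range.1 hk
  have n1 := S.bad_nonneg (S.W * k + 1)
  have n2 := S.bad_nonneg (S.W * (S.N - 1 - k) + (S.W - 1))
  have hsum : (S.W * k + 1) + (S.W * (S.N - 1 - k) + (S.W - 1)) = S.W * S.N := by
    obtain ⟨r, hr⟩ : ∃ r, S.N = k + 1 + r := ⟨S.N - 1 - k, by omega⟩
    have : S.N - 1 - k = r := by omega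
    rw [this, hr, mul_add, mul_add]; omega
  have g1 := S.good (ρ := S.W * k + 1) (by omega) (by simp) (by omega) (by linarith) hE h1 h2
  have g2 := S.good (ρ := S.W * (S.N - 1 - k) + (S.W - 1)) (by omega) (by simpa using c2)
    (by omega) (by linarith) hE h1 h2
  have := g1.add g2
  rw [← add_div, ← Nat.cast_add, hsum] at this
  exact this.mono (by omega)

end Setup

end Crest.Agent.R19
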