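import Crest.Agent.R19.F

/-! Row 19: numerical inequalities and the construction of the set-up. -/

set_option autoImplicit false

namespace Crest.Agent.R19

open Finset Filter Topology

lemma ev_poly (C k : ℕ) : ∀ᶠ m : ℕ in atTop, C * (m + 5) ^ k ≤ 2 ^ m := by
  have h := tendsto_pow_const_div_const_pow_of_one_lt k (r := (2 : ℝ)) (by norm_num)
  have h2 := (h.comp (tendsto_add_atTop_nat 5)).const_mul (32 * (C : ℝ))
  rw [mul_zero] at h2
  filter_upwards [h2.eventually (gt_mem_nhds zero_lt_one)] with m hm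
  simp only [Function.comp] at hm
  rw [← mul_div_assoc, div_lt_one (by positivity), pow_add] at hm
  have : (C : ℝ) * ((m + 5 : ℕ) : ℝ) ^ k ≤ 2 ^ m := by linarith
  exact_mod_cast this

lemma ev_H3 : ∀ᶠ m : ℕ in atTop, 6 / ((2 ^ (m + 5) : ℕ) : ℝ) + 120 * (9 / 10 : ℝ) ^ m +
    12 * ((2 ^ (m + 5) : ℕ) : ℝ) ^ 2 * 4 ^ (2 ^ m) * (9 / 10 : ℝ) ^ (2 ^ (m + 5) : ℕ) < 1 / 2 := by
  have h1 : Tendsto (fun m : ℕ => 6 / 32 * (1 / 2 : ℝ) ^ m) atTop (𝓝 (6 / 32 * 0)) :=
    (tendsto_pow_atTop_nhds_zero_of_lt_one (by norm_num) (by norm_num)).const_mul _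
  have h2 : Tendsto (fun m : ℕ => 120 * (9 / 10 : ℝ) ^ m) atTop (𝓝 (120 * 0)) :=
    (tendsto_pow_atTop_nhds_zero_of_lt_one (by norm_num) (by norm_num)).const_mul _
  have h3 := tendsto_pow_const_mul_const_pow_of_abs_lt_one 2 (r := (4 * (9 / 10) ^ 32 : ℝ))
    (by rw [abs_of_pos (by positivity)]; norm_num)
  have h4 := (h3.comp (tendsto_pow_atTop_atTop_of_one_lt (show (1 : ℕ) < 2 by norm_num))).const_mul
    (12 * 32 ^ 2 : ℝ)
  have h5 := (h1.add h2).add h4
  simp only [mul_zero, add_zero] at h5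
  filter_upwards [h5.eventually (gt_mem_nhds (show (0 : ℝ) < 1 / 2 by norm_num))] with m hm
  simp only [Function.comp] at hm
  have a1 : 6 / ((2 ^ (m + 5) : ℕ) : ℝ) = 6 / 32 * (1 / 2 : ℝ) ^ m := by
    push_cast
    rw [pow_add, one_div, inv_pow]; field_simp; norm_num
  have a2 : 12 * ((2 ^ (m + 5) : ℕ) : ℝ) ^ 2 * 4 ^ (2 ^ m) * (9 / 10 : ℝ) ^ (2 ^ (m + 5) : ℕ) =
      12 * 32 ^ 2 * (((2 ^ m : ℕ) : ℝ) ^ 2 * (4 * (9 / 10 : ℝ) ^ 32) ^ (2 ^ m : ℕ)) := by
    have : 2 ^ (m + 5) = 32 * 2 ^ m := by ring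
    rw [this, pow_mul, mul_pow (4 : ℝ)]
    generalize (2 ^ m : ℕ) = w
    generalize ((9 / 10 : ℝ) ^ 32) ^ w = z
    push_cast
    ring
  rw [a1, a2]
  exact hm

lemma exists_pool {l : ℕ} (hl : 10 * l < 2 ^ l) (hl1 : 1 ≤ l) : ∃ P : Finset ℕ, P.card = 2 ^ l ∧
    ∀ p ∈ P, p.Prime ∧ (2 ^ l) ^ 2 ≤ p ∧ p ≤ 2 ^ (3 * l) := by
  set n := 2 ^ (3 * l) with hn
  set J := 2 ^ l with hJ
  have hnJ : n = J ^ 3 := by rw [hn, hJ, ← pow_mul, mul_comm]
  have hJ1 : 1 ≤ J := Nat.one_le_two_pow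
  have h1 := Chebyshev.two_pow_le_mul_lcmUpto n
  have h2 : Nat.lcmUpto n ≤ n ^ (Nat.primesLE n).card := by
    rw [Nat.lcmUpto_eq_prod_pow_log]
    exact Finset.prod_le_pow_card _ _ _ fun p _ => Nat.pow_log_le_self p (by positivity)
  have h3 : 2 ^ n ≤ 2 ^ (3 * l + 1 + 3 * l * (Nat.primesLE n).card) := by
    rw [pow_add, pow_mul 2 (3 * l), pow_succ, ← hn]
    refine h1.trans (Nat.mul_le_mul ?_ h2)
    have : 1 ≤ n := Nat.one_le_two_pow
    omega
  have h4 := (Nat.pow_le_pow_iff_right (by norm_num)).1 h3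
  have h5 : 2 * J ^ 2 ≤ (Nat.primesLE n).card := by
    by_contra hc
    have a1 : 3 * l * (Nat.primesLE n).card ≤ 3 * l * (2 * J ^ 2) :=
      Nat.mul_le_mul_left _ (by omega)
    have a2 : 1 ≤ J ^ 2 := Nat.one_le_pow _ _ hJ1
    have a3 : 10 * l * J ^ 2 < J * J ^ 2 := Nat.mul_lt_mul_of_pos_right hl a2
    have a4 : l * 1 ≤ l * J ^ 2 := Nat.mul_le_mul_left _ a2
    rw [hnJ] at h4 a1
    nlinarith
  have h6 : J ≤ ((Nat.primesLE n).filter fun p => J ^ 2 ≤ p).card := by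
    have a1 := Finset.card_filter_add_card_filter_not (s := Nat.primesLE n) (fun p => J ^ 2 ≤ p)
    have a2 : ((Nat.primesLE n).filter fun p => ¬J ^ 2 ≤ p).card ≤ (range (J ^ 2)).card :=
      card_le_card fun p hp => mem_range.2 (not_le.1 (mem_filter.1 hp).2)
    rw [card_range] at a2
    have : J ≤ J ^ 2 := Nat.le_self_pow (by norm_num) _
    omega
  obtain ⟨P, hP, hc⟩ := Finset.exists_subset_card_eq h6
  refine ⟨P, hc, fun p hp => ?_⟩
  obtain ⟨h7, h8⟩ := mem_filter.1 (hP hp)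
  exact ⟨Nat.prime_of_mem_primesLE h7, h8, Nat.le_of_mem_primesLE h7⟩

theorem ev_UF : ∀ᶠ m : ℕ in atTop, ∀ a b : ℕ, 1 ≤ a → a < b → b < 2 ^ 2 ^ (m + 5) →
    UF (62 * (m + 5)) ((a : ℚ) / b) := by
  filter_upwards [ev_poly (127 ^ 7) 21, ev_poly 273 2, ev_H3, eventually_gt_atTop 0]
    with m e1 e2 e3 hm a b ha hab hb
  obtain ⟨l, hl⟩ : ∃ l, l = m + 5 := ⟨_, rfl⟩
  obtain ⟨J, hJ⟩ : ∃ J, J = 2 ^ (m + 5) := ⟨_, rfl⟩
  have hJm : J = 32 * 2 ^ m := by rw [hJ, pow_add]; ring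
  rw [← hJ] at e3 hb
  rw [← hl] at e1 e2 hJ ⊢
  have hl5 : 5 ≤ l := by omega
  have hlJ : 273 * l ^ 2 ≤ J := by omega
  have hl10 : 10 * l < J := by nlinarith
  obtain ⟨P, hPc, hP⟩ := exists_pool (l := l) (hJ ▸ hl10) (by omega)
  rw [← hJ] at hPc hP
  obtain ⟨A, D, hA, hD0, hDd, hUF, hDu, hDl⟩ := greedy ha hab
  have hQ : pr P ≤ 2 ^ (3 * l * J) := hPc ▸ pr_le_pow fun p hp => (hP p hp).2.2
  have hQ2 : 2 ^ J ≤ pr P := hPc ▸ Finset.pow_card_le_prod _ (fun p => p) _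
    fun p hp => (hP p hp).1.two_le
  have hW : primorial (2 ^ m) ≤ 2 ^ J := by
    refine (primorial_le_four_pow _).trans ?_
    rw [show (4 : ℕ) = 2 ^ 2 from rfl, ← pow_mul]
    exact Nat.pow_le_pow_right (by norm_num) (by omega)
  have h2l : 2 ^ (2 * l) = J * J := by rw [two_mul, pow_add, ← hJ]
  let S : Setup :=
    { m := m, J := J, P := P, D := fun i => D (2 * l + i + 1), K := 6 * l + 2
      x := (J + 1) * 2 ^ (8 * l + 3), N := A (8 * l + 3) * (pr P * pr P)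
      hm := hm
      hJ := hl ▸ hJ
      hP := fun p hp => (hP p hp).1
      hPl := fun p hp => (hP p hp).2.1
      hPu := fun p hp => hl ▸ (hP p hp).2.2
      hPc := hPc
      hD := by
        intro i
        refine le_trans (Nat.mul_le_mul_left _ (Nat.succ_le_succ ?_)) (hDl (2 * l + i))
        refine hQ.trans (Nat.pow_le_pow_right (by norm_num) ?_)
        refine le_trans ?_ (Nat.pow_le_pow_right (by norm_num) (Nat.le_add_right (2 * l) i))
        rw [h2l]
        exact Nat.mul_le_mul_right _ (by omega)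
      hD0 := hD0 _
      hx := by
        have h1 := hDu (8 * l + 3)
        have h2 : (2 * b) ^ 2 ^ (8 * l + 3) ≤ (2 ^ (J + 1)) ^ 2 ^ (8 * l + 3) :=
          Nat.pow_le_pow_left (by rw [pow_succ]; omega) _
        rw [← pow_mul] at h2
        rw [show 2 * l + (6 * l + 2) + 1 = 8 * l + 3 by ring]
        omega
      hN := by
        refine hQ2.trans ?_
        calc pr P = 1 * (pr P * 1) := by ring
          _ ≤ _ := Nat.mul_le_mul (hA _).1
            (Nat.mul_le_mul_left _ (pr_pos fun p hp => (hP p hp).1))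
      hWN := by
        have h1 : A (8 * l + 3) ≤ 2 ^ J := (hA _).2.trans (hab.le.trans hb.le)
        calc _ ≤ 2 ^ J * (2 ^ J * (2 ^ (3 * l * J) * 2 ^ (3 * l * J))) :=
              Nat.mul_le_mul hW (Nat.mul_le_mul h1 (Nat.mul_le_mul hQ hQ))
          _ = _ := by rw [← pow_add, ← pow_add, ← pow_add]; congr 1; ring
      hK := by omega
      H1 := by
        intro i h _ h2 h3
        rw [← hl] at h2 ⊢
        rcases le_total i (42 * l ^ 2) with hi | hi
        · rw [min_eq_left (by omega), pow_mul]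
          have a1 : 3 * l * i + 1 ≤ 127 * l ^ 3 := by
            have : 3 * l * i ≤ 3 * l * (42 * l ^ 2) := Nat.mul_le_mul_left _ hi
            have : 1 ≤ l ^ 3 := Nat.one_le_pow _ _ (by omega)
            nlinarith
          have a2 : (3 * l * i + 1) ^ 7 ≤ 2 ^ m := by
            refine (Nat.pow_le_pow_left a1 7).trans (le_trans (le_of_eq ?_) e1)
            ring
          calc _ ≤ (2 ^ m) ^ h := Nat.pow_le_pow_left a2 _
            _ ≤ _ := by rw [← pow_mul]; exact Nat.pow_le_pow_right (by norm_num) h3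
        · have a1 : 3 * l * min i J + 1 ≤ 2 ^ (2 * l) := by
            have : 3 * l * min i J ≤ 3 * l * J := Nat.mul_le_mul_left _ (min_le_right _ _)
            rw [h2l]
            nlinarith
          calc _ ≤ (2 ^ (2 * l)) ^ (7 * h) := Nat.pow_le_pow_left a1 _
            _ ≤ _ := by
              rw [← pow_mul]
              refine Nat.pow_le_pow_right (by norm_num) (le_trans ?_ (le_min hi (by omega)))
              nlinarith
      H2 := by
        rw [← hl]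
        have a1 : (J + 1) * 2 ^ (8 * l + 3) + 1 ≤ 2 ^ (9 * l + 4) := by
          have : 2 ^ (9 * l + 4) = (2 * J) * 2 ^ (8 * l + 3) := by
            rw [hJ, ← pow_succ', ← pow_add]; congr 1; ring
          have h1 : 1 ≤ 2 ^ (8 * l + 3) := Nat.one_le_two_pow
          rw [this]
          have : (J + 2) * 2 ^ (8 * l + 3) ≤ (2 * J) * 2 ^ (8 * l + 3) :=
            Nat.mul_le_mul_right _ (by omega)
          nlinarith
        calc _ ≤ (2 ^ (9 * l + 4)) ^ (7 * (3 * l)) := Nat.pow_le_pow_left a1 _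
          _ ≤ _ := by
            rw [← pow_mul]
            refine Nat.pow_le_pow_right (by norm_num) (le_trans ?_ hlJ)
            nlinarith
      H3 := e3 }
  have hdvd : ∀ i j, i ≤ j → D i ∣ D j := by
    intro i j hij
    induction j, hij using Nat.le_induction with
    | base => rfl
    | succ j _ ih => exact ih.trans (hDd j)
  have hQ0 : 0 < pr P := pr_pos fun p hp => (hP p hp).1
  have hmain := S.main (E := S.W * (pr P * pr P * D (8 * l + 3)))
    (Nat.mul_pos S.W_pos (Nat.mul_pos (Nat.mul_pos hQ0 hQ0) (hD0 _)))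
    (Dvd.dvd.mul_left (Dvd.intro _ rfl) _)
    (fun i hi => Dvd.dvd.mul_left (Nat.mul_dvd_mul_left _ (hdvd _ _ (by
      have : i < 6 * l + 2 := hi
      omega))) _)
  have hK : S.K = 6 * l + 2 := rfl
  have hN : S.N = A (8 * l + 3) * (pr P * pr P) := rfl
  rw [hK, hN] at hmain
  have := (hUF (8 * l + 3)).add hmain
  refine UF.mono ?_ (show 8 * l + 3 + 8 * (6 * l + 2 + 1) ≤ 62 * l by omega)
  convert this using 1
  have a1 : (S.W : ℚ) ≠ 0 := by exact_mod_cast S.W_pos.ne'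
  have a2 : (pr P : ℚ) ≠ 0 := by exact_mod_cast hQ0.ne'
  have a3 : (D (8 * l + 3) : ℚ) ≠ 0 := by exact_mod_cast (hD0 _).ne'
  push_cast
  field_simp
  ring

end Crest.Agent.R19
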